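import Vale.Agent.P002.Bd3.B17
import Vale.Agent.P002.Bd3.B18
import Vale.Agent.P002.Bd3.B19

/-!
# Potential density of integral points on `SL_r` character varieties of curves and their products
-/

namespace Vale.Agent.Results.P002.OneRegular

open Matrix NumberField Vale.Agent.P002R.Product

/-- `X = X_1 × ... × X_k`, where `X_i` is a smooth complex curve of genus `g i` with `n i`
punctures (`k = 1`: all curves). Part 1 (no boundary conditions): all `g`, `n`. Part 2 (boundary
classes `C i j` whose eigenvalues are algebraic units, for example roots of unity): no condition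
on the classes for the curves `X_i` of positive genus, for the spheres with at most two punctures,
and for `r ≤ 3`; for the other spheres one of the classes is nonderogatory, or all classes but one
are of the form scalar plus rank at most one. In both cases some number field `L` makes the
`𝓞 L`-integral points Zariski dense in `Y`; in part 2 the representations into `SL_r(𝓞 L)` are
dense in `Y`. If the eigenvalues of the `C i j` are `N`-th roots of unity and no `X_i` is a
punctured curve of genus one, every number field `L ⊂ ℂ` which contains the `(2 * N * r!)`-th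
roots of unity and has infinitely many integral units works. -/
theorem result (k : ℕ) (g n : Fin k → ℕ) (r : ℕ) :
    (∃ L : IntermediateField ℚ ℂ, FiniteDimensional ℚ L ∧
      IsZariskiDense {X ∈ YNone g n r | IsIntegralPoint L X} (YNone g n r)) ∧
    ∀ C : (i : Fin k) → Fin (n i) → SpecialLinearGroup (Fin r) ℂ,
      (∀ i, 1 ≤ g i ∨ n i ≤ 2 ∨ r ≤ 3 ∨ (∃ j, IsNonderogatory (C i j)) ∨
        ∃ j₀, ∀ j, j ≠ j₀ → ∃ z : ℂ, ((C i j).1 - z • 1).rank ≤ 1) →
      ((∀ i j z, IsEigenvalue (C i j) z → IsIntegral ℤ z ∧ IsIntegral ℤ z⁻¹) →
        ∃ L : IntermediateField ℚ ℂ, FiniteDimensional ℚ L ∧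
          IsZariskiDense {X ∈ Y g C | IsIntegralPoint L X} (Y g C) ∧
          IsZariskiDenseRep {X ∈ Y g C | IsIntegralRep L X} (Y g C)) ∧
      ((∀ i, g i = 1 → n i = 0) →
        ∀ N : ℕ, 0 < N → (∀ i j z, IsEigenvalue (C i j) z → z ^ N = 1) →
        ∀ L : IntermediateField ℚ ℂ, FiniteDimensional ℚ L →
          (∀ z : ℂ, z ^ (2 * N * r.factorial) = 1 → z ∈ L) → Infinite (𝓞 L)ˣ →
          IsZariskiDenseRep {X ∈ Y g C | IsIntegralRep L X} (Y g C)) :=
  main3 Vale.Agent.P002L.g01Irr Vale.Agent.P002R.g0R k g n r

end Vale.Agent.Results.P002.OneRegular
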