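import Vale.Agent.P002.Bd3.B17
import Vale.Agent.P002.Bd3.B18
import Vale.Agent.P002.Bd3.B19

/-!
# Potential density of integral points on `SL_r` character varieties of curves and their products
-/

namespace Vale.Agent.Results.P002.PositiveGenus

open Matrix NumberField Vale.Agent.P002R.Product

/-- `X = X_1 × ... × X_k`, where `X_i` is a smooth complex curve of genus `g i` with `n i`
punctures (`k = 1`: all curves). Part 1 (no boundary conditions): all `g`, `n`. Part 2 (boundary
classes `C i j` whose eigenvalues are algebraic units, for example roots of unity): no condition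
on the classes for the curves `X_i` of positive genus and for the spheres with at most two
punctures; for the other spheres at least two of the classes are nonderogatory. In both cases some
number field `L` makes the `𝓞 L`-integral points Zariski dense in `Y`; in part 2 the
representations into `SL_r(𝓞 L)` are dense in `Y`. If the eigenvalues of the `C i j` are `N`-th
roots of unity and no `X_i` is a punctured curve of genus one, every number field `L ⊂ ℂ` which
contains the `(2 * N * r!)`-th roots of unity and has infinitely many integral units works. -/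
theorem result (k : ℕ) (g n : Fin k → ℕ) (r : ℕ) :
    (∃ L : IntermediateField ℚ ℂ, FiniteDimensional ℚ L ∧
      IsZariskiDense {X ∈ YNone g n r | IsIntegralPoint L X} (YNone g n r)) ∧
    ∀ C : (i : Fin k) → Fin (n i) → SpecialLinearGroup (Fin r) ℂ,
      (∀ i, 1 ≤ g i ∨ n i ≤ 2 ∨ 2 ≤ {j | IsNonderogatory (C i j)}.ncard) →
      ((∀ i j z, IsEigenvalue (C i j) z → IsIntegral ℤ z ∧ IsIntegral ℤ z⁻¹) →
        ∃ L : IntermediateField ℚ ℂ, FiniteDimensional ℚ L ∧
          IsZariskiDense {X ∈ Y g C | IsIntegralPoint L X} (Y g C) ∧
          IsZariskiDenseRep {X ∈ Y g C | IsIntegralRep L X} (Y g C)) ∧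
      ((∀ i, g i = 1 → n i = 0) →
        ∀ N : ℕ, 0 < N → (∀ i j z, IsEigenvalue (C i j) z → z ^ N = 1) →
        ∀ L : IntermediateField ℚ ℂ, FiniteDimensional ℚ L →
          (∀ z : ℂ, z ^ (2 * N * r.factorial) = 1 → z ∈ L) → Infinite (𝓞 L)ˣ →
          IsZariskiDenseRep {X ∈ Y g C | IsIntegralRep L X} (Y g C)) :=
  ⟨(main3 Vale.Agent.P002L.g01Irr Vale.Agent.P002R.g0R k g n r).1, fun C hg =>
    (main3 Vale.Agent.P002L.g01Irr Vale.Agent.P002R.g0R k g n r).2 C fun i =>
      (hg i).imp_right (Or.imp_right fun h => Or.inr (Or.inl
        (Set.nonempty_of_ncard_ne_zero (Nat.ne_of_gt (lt_of_lt_of_le Nat.two_pos h)))))⟩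

end Vale.Agent.Results.P002.PositiveGenus
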