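import Vale.Agent.P007.Bdl.B8

open MeasureTheory NumberField Filter Topology

namespace Vale.Agent.Results.P007.CompositeFails

open Vale.Agent.P007

/-- Q1 fails in every composite degree, already for maximal orders and for all orderings of the
embeddings; and a necessary condition for equidistribution of arbitrary sequences of orders. -/
theorem result :
    (∀ n : ℕ, 4 ≤ n → ¬ n.Prime → ¬ Q1 n) ∧
    (∀ n : ℕ, 4 ≤ n → ¬ n.Prime →
      ∃ (K : ℕ → Subfield ℝ) (_ : ∀ i, NumberField (K i)),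
        (∀ i, IsTotallyReal (K i) ∧ Module.finrank ℚ (K i) = n) ∧
        Tendsto (fun i => |discr (K i)|) atTop atTop ∧
        ∃ Y : Set (X n), IsClosed Y ∧ (∀ m : Measure (X n), IsInvProb m → m Y = 0) ∧
          ∀ (σ : ∀ i, Fin n ≃ (K i →+* ℝ)) (μ : ℕ → Measure (X n)),
            (∀ i, PktMeas (Pkt (K i) ⊤ (σ i)) (μ i)) →
              (∀ i, μ i Y = 1) ∧ ∀ m, IsInvProb m → ¬ WeakTo μ m) ∧
    (∀ (n : ℕ) (K : ℕ → Subfield ℝ) [∀ i, NumberField (K i)] (O : ∀ i, Subring (𝓞 (K i)))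
      (σ : ∀ i, Fin n ≃ (K i →+* ℝ)) (μ : ℕ → Measure (X n)) (m : Measure (X n)),
      (∀ i, IsDatum (K i) (O i) (σ i)) → (∀ i, PktMeas (Pkt (K i) (O i) (σ i)) (μ i)) →
      IsInvProb m → WeakTo μ m →
      ∀ B : ℝ, ∀ᶠ i in atTop, ∀ a ∈ O i, (∀ j, |σ i j a| ≤ B) → ∃ z : ℤ, a = z) ∧
    (∀ (n : ℕ) (K : Subfield ℝ) [NumberField K] (O : Subring (𝓞 K)) (σ : Fin n ≃ (K →+* ℝ)),
      IsDatum K O σ → ∃! μ, PktMeas (Pkt K O σ) μ ∧ IsProbabilityMeasure μ) ∧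
    (∀ n : ℕ, 1 ≤ n → ∃ m : Measure (X n), IsInvProb m) := by
  refine ⟨not_Q1, composite_fails, fun _ _ _ _ _ _ _ h hμ hm hW B => necessary' h hμ hm hW B,
    fun _ _ _ _ _ h => ?_, exists_invProb'⟩
  obtain ⟨μ, hμ, hu⟩ := existsUnique_pktMeas h
  exact ⟨μ, ⟨hμ, pktMeas_prob h hμ⟩, fun ν hν => hu ν hν.1⟩

end Vale.Agent.Results.P007.CompositeFails
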