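import Vale.Agent.P012.Bdl.B1

namespace Vale.Agent.Results.P012.ErdosUpper

open Vale.Agent.P012

/-- Every `a/b` with `1 ≤ a < b` is a sum of `O(log log b)` distinct unit fractions. -/
theorem result : ∃ C : ℝ, ∃ b₀ : ℕ, ∀ b : ℕ, b₀ ≤ b → ∀ a : ℕ, 1 ≤ a → a < b →
    ∃ s : Finset ℕ, (∀ n ∈ s, 2 ≤ n) ∧ (s.card : ℝ) ≤ C * Real.log (Real.log b) ∧
      ∑ n ∈ s, (1 : ℚ) / n = (a : ℚ) / b := by
  obtain ⟨C, b₀, h⟩ := upper_of_key (key_of exists_dvd_sum (vector_of collision_bound prime_count))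
  refine ⟨C, b₀, fun b hb a ha hab => ?_⟩
  obtain ⟨k, hk, hUF⟩ := h b hb a hab
  obtain ⟨s, -, hs2, hs3, hs4⟩ := exists_of_isUF ha hab hUF
  exact ⟨s, hs3, (Nat.cast_le.2 hs2).trans hk, hs4⟩

end Vale.Agent.Results.P012.ErdosUpper
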