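import Vale.Agent.P013.Bdl.B6

namespace Vale.Agent.Results.P013.Main

open Vale.Agent.P013

theorem result :
    (∃ K A : ℝ, 0 < K ∧ 0 < A ∧ ∀ n : ℕ, 2 ≤ n.primeFactors.card →
      (jacobsthal n : ℝ) ≤ K * n.primeFactors.card * (Real.log n.primeFactors.card) ^ A *
        Real.exp (∑ p ∈ n.primeFactors.filter (fun p => p ≤ n.primeFactors.card),
          Real.log p / p)) ∧
    (∃ A : ℝ, ∃ k₀ : ℕ, ∀ n : ℕ, k₀ ≤ n.primeFactors.card →
      A * Real.log (Real.log n.primeFactors.card) ≤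
        ∑ p ∈ (Finset.range (n.primeFactors.card + 1)).filter (fun p => p.Prime ∧ ¬ p ∣ n),
          Real.log p / p →
      jacobsthal n ≤ n.primeFactors.card ^ 2) ∧
    (∀ ε : ℝ, 0 < ε → ∃ η : ℝ, 0 < η ∧ ∃ k₀ : ℕ, ∀ (n : ℕ) (α : ℝ), 1 / 2 ≤ α → α ≤ 1 →
      k₀ ≤ n.primeFactors.card →
      ∑ p ∈ n.primeFactors.filter (fun p : ℕ => (n.primeFactors.card : ℝ) ^ α < (p : ℝ) ∧
        p ≤ n.primeFactors.card), 1 / (p : ℝ) ≤ η →
      (jacobsthal n : ℝ) ≤ (n.primeFactors.card : ℝ) ^ (2 * α + ε)) :=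
  ⟨general_bound, jacobsthal_sq, vaughan_alpha⟩

end Vale.Agent.Results.P013.Main
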