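import Vale.Agent.P028.MathlibUsed
import Vale.Agent.P028.Bdl.B5
import Vale.Agent.P028.Bdl.B7

namespace Vale.Agent.Results.P028.AllShifts

open MeasureTheory Filter

/-- Let `ψ ≥ 0` be arbitrary (not monotone). Almost every `x` satisfies `‖q x - γ‖ < ψ q` for
infinitely many `q` in each of the following cases.
(A) `γ` is any real number and `∑ φ(q) ψ(q) / (q (log q)^ε) = ∞` for some `ε > 0`.
(M1) `γ` is irrational, not Liouville, and `∑ φ(q) ψ(q) / (q (log log q)^ε) = ∞` for some `ε > 0`.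
(M2) `γ` is irrational, not Liouville, `ψ q ≤ exp (-(log log q)^(1+δ))` for large `q`
(some `δ > 0`), and `∑ φ(q) ψ(q) / q = ∞`. -/
theorem result :
    ∀ γ : ℝ, ∀ ψ : ℕ → ℝ, (∀ q, 0 ≤ ψ q) →
      ((∃ ε : ℝ, 0 < ε ∧ ¬ Summable (fun q : ℕ =>
          ((Nat.totient q : ℝ) / q) * ψ q / (Real.log q) ^ ε)) ∨
        (Irrational γ ∧ ¬ Liouville γ ∧
          ((∃ ε : ℝ, 0 < ε ∧ ¬ Summable (fun q : ℕ =>
              ((Nat.totient q : ℝ) / q) * ψ q / (Real.log (Real.log q)) ^ ε)) ∨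
            (∃ δ : ℝ, 0 < δ ∧
              (∀ᶠ q : ℕ in atTop, ψ q ≤ Real.exp (-(Real.log (Real.log q)) ^ (1 + δ))) ∧
              ¬ Summable (fun q : ℕ => ((Nat.totient q : ℝ) / q) * ψ q))))) →
      volume {x : ℝ | {q : ℕ | 0 < q ∧
        |(q * x - γ) - round (q * x - γ)| < ψ q}.Infinite}ᶜ = 0 := by
  intro γ ψ hψ h
  rcases h with ⟨ε, hε, hns⟩ | ⟨h1, h2, h⟩
  · refine Vale.P028.theoremA γ ψ hψ ε hε ?_
    intro hs
    apply hns
    refine hs.congr fun q => ?_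
    rw [div_mul_eq_mul_div, div_div]
  · obtain ⟨c₀, hc₀, τ, hτ, hD⟩ := Vale.P028.exists_dioph h1 h2
    rcases h with ⟨ε, hε, hns⟩ | ⟨δ, hδ, hev, hns⟩
    · exact Vale.P028.main_dioph hc₀ hτ hD hε ψ hψ hns
    · refine Vale.P028.full_classI' hc₀ hτ hD hδ ψ hψ hev ?_
      intro hs
      apply hns
      refine hs.congr fun q => ?_
      ring

end Vale.Agent.Results.P028.AllShifts
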