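import Vale.Agent.P028.MathlibUsed
import Vale.Agent.P028.Bd3.B5

namespace Vale.Agent.Results.P028.EveryShift

open MeasureTheory Filter

/-- Let `γ` be any real number and `ψ ≥ 0` arbitrary (not monotone), and let `ε > 0`. Almost every
`x` satisfies `‖q x - γ‖ < ψ q` for infinitely many `q` in each of the following cases.
(1) `ψ q ≤ exp (-(log log q)^(1+ε))` for large `q` and `∑ φ(q) ψ(q) / q = ∞`.
(2) `∑ φ(q) ψ(q) / (q (log log q)^ε) = ∞`.
(3) (contains (1) and (2)) `∑ φ(q) ψ(q) / (q w(q)) = ∞` where `w q = 1` if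
`ψ q ≤ exp (-(log log q)^(1+ε))` and `w q = (log log q)^ε` otherwise. -/
theorem result :
    ∀ γ : ℝ, ∀ ψ : ℕ → ℝ, (∀ q, 0 ≤ ψ q) → ∀ ε : ℝ, 0 < ε →
      (((∀ᶠ q : ℕ in atTop, ψ q ≤ Real.exp (-(Real.log (Real.log q)) ^ (1 + ε))) ∧
          ¬ Summable (fun q : ℕ => ((Nat.totient q : ℝ) / q) * ψ q)) ∨
        ¬ Summable (fun q : ℕ => ((Nat.totient q : ℝ) / q) * ψ q /
          (Real.log (Real.log q)) ^ ε) ∨
        ¬ Summable (fun q : ℕ => ((Nat.totient q : ℝ) / q) * ψ q /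
          (if ψ q ≤ Real.exp (-(Real.log (Real.log q)) ^ (1 + ε)) then 1
            else (Real.log (Real.log q)) ^ ε))) →
      volume {x : ℝ | {q : ℕ | 0 < q ∧
        |(q * x - γ) - round (q * x - γ)| < ψ q}.Infinite}ᶜ = 0 := by
  intro γ ψ hψ ε hε h
  rcases h with ⟨hev, hns⟩ | hns | hns
  · exact Vale.P028.theoremK γ ψ hψ ε hε hev hns
  · exact Vale.P028.allShifts_loglog γ ψ hψ ε hε hns
  · refine Vale.P028.combined γ ψ hψ ε hε ?_
    intro hs
    apply hns
    refine hs.congr fun q => ?_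
    congr

end Vale.Agent.Results.P028.EveryShift
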