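import Vale.Agent.P037.Bdl.B1

namespace Vale.Agent.Results.P037.Disproof

open Vale.Agent.P037

theorem result :
    (¬ ∀ (k : ℕ) (H : Matrix (Fin k) (Fin k) Bool), 1 ≤ k → PolynomialRemoval H) ∧
    ∃ H : Matrix (Fin 49) (Fin 49) Bool, ∃ a : ℝ, 0 < a ∧ ∃ ε₀ : ℝ, 0 < ε₀ ∧
      ∀ ε : ℝ, 0 < ε → ε ≤ ε₀ →
        ∃ (n : ℕ) (A : Matrix (Fin n) (Fin n) Bool), 1 ≤ n ∧ ε ≤ distFree H A ∧
          (numCopies H A : ℝ) ≤ Real.exp (-a / Real.sqrt ε) * (n : ℝ) ^ (2 * 49) :=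
  ⟨fun h => not_polynomialRemoval (h 49 H (by norm_num)), H, quant⟩

end Vale.Agent.Results.P037.Disproof
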