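import Vale.Agent.P038.K4.Main

open Vale.Agent.P038 Vale.Agent.P038.K4

/-- Seymour's second neighbourhood conjecture holds for every nonempty finite oriented graph whose
underlying graph has no `K₄`, and more generally for every nonempty finite oriented graph in which
any four pairwise joined vertices consist of a cyclic triangle and a vertex dominated by its three
vertices. The same holds with arbitrary nonnegative weights on the vertices. -/
theorem Vale.Agent.Results.P038.K4Free.result
    {V : Type*} [Fintype V] [Nonempty V] (D : OGraph V) (hD : NoK4 D ∨ OnlySinkK4 D) :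
    (∃ v, (N1 D v).card ≤ (N2 D v).card) ∧
    ∀ w : V → ℝ, (∀ v, 0 ≤ w v) → ∃ v, ∑ x ∈ N1 D v, w x ≤ ∑ x ∈ N2 D v, w x := by
  have h : NoBadK4 D := by
    rcases hD with h | h
    · exact h.onlySink.noBad
    · exact h.noBad
  exact ⟨snc_card D h, fun w hw => snc_weighted D h w hw⟩
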