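import Vale.Agent.P039.Bd3.B1

namespace Vale.Agent.Results.P039.SquareReduction

open Vale.Agent.P039.Sk

/-- Every cubic bipartite plane map which can be reduced to one of the two base maps by repeatedly
removing a 4-face has a Hamiltonian underlying graph. -/
theorem result {B W : Type} [Fintype B] [Fintype W] [DecidableEq B] [DecidableEq W]
    (X : Web B W) (hX : Gen X) : X.graph.IsHamiltonian :=
  final X hX

end Vale.Agent.Results.P039.SquareReduction
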