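import Vale.Agent.P040.Bdl.B5

namespace Vale.Agent.Results.P040.ZarankiewiczExact

open Vale.Agent.P040

/-- Zarankiewicz's conjecture holds for rectilinear, monotone, `x`-bounded and two-page drawings
and for geodesic drawings on the sphere; the minimum numbers of crossings are determined. -/
theorem result (m n : ℕ) :
    IsLeast {c | ∃ D : Drawing (K m n), D.Rectilinear ∧ D.crossings = c} (zar m n) ∧
    IsLeast {c | ∃ D : Drawing (K m n), D.Monotone ∧ D.crossings = c} (zar m n) ∧
    IsLeast {c | ∃ D : Drawing (K m n), D.XBounded ∧ D.Uncrossed ∧ D.crossings = c} (zar m n) ∧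
    IsLeast {c | ∃ D : GeodesicDrawing (K m n), D.crossings = c} (zar m n) ∧
    (∀ D : Drawing (K m n), D.TwoPage → zar m n ≤ D.crossings) :=
  ⟨Exact.rect_least m n, Exact.mono_least m n, Exact.xBounded_least m n, Exact.sph_least m n,
    Exact.twoPage_ge⟩

end Vale.Agent.Results.P040.ZarankiewiczExact
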