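import Vale.Agent.P048.Bdl.B1

namespace Vale.Agent.Results.P048.AllNine

/-- Let `m ≥ n ≥ 3` and suppose that `m ≥ 9` or `m ≥ 2 n - 1`. Then the Ramsey number
`R(C_m, K_n)` equals `(m - 1) (n - 1) + 1`: this is the least `N` such that every graph on `N`
vertices contains a copy of the cycle `C_m` or an independent set of `n` vertices. -/
theorem result (m n : ℕ) (hn : 3 ≤ n) (hnm : n ≤ m) (hm : 9 ≤ m ∨ 2 * n ≤ m + 1) :
    IsLeast {N : ℕ | ∀ G : SimpleGraph (Fin N),
      (SimpleGraph.cycleGraph m).IsContained G ∨ ∃ s : Finset (Fin N), G.IsNIndepSet n s}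
      ((m - 1) * (n - 1) + 1) := by
  rcases hm with hm | hm
  · exact Vale.Agent.P048.nine_range m n (by omega) hnm hm
  · exact Vale.Agent.P048.half_range m n (by omega) hm

end Vale.Agent.Results.P048.AllNine
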