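import Vale.Agent.P054.MathlibUsed
import Vale.Agent.P054.Bdl.B5
import Vale.Agent.P054.Bdl.B6
import Vale.Agent.P054.Bdl.B11
import Vale.Agent.P054.Bdl.B12

set_option autoImplicit false
set_option linter.all false

namespace Vale.Agent.Results.P054.DistancesAllDims

/-- `g d n`: the least number of distinct distances determined by `n` points of `ℝ^d` -/
noncomputable def g (d n : ℕ) : ℕ :=
  sInf {k : ℕ | ∃ P : Finset (EuclideanSpace ℝ (Fin d)), P.card = n ∧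
    {r : ℝ | ∃ p ∈ P, ∃ q ∈ P, p ≠ q ∧ r = dist p q}.ncard = k}

theorem result :
    (∀ ε : ℝ, 0 < ε → ∃ c : ℝ, 0 < c ∧
      ∀ n : ℕ, 2 ≤ n → c * (n : ℝ) ^ ((23 : ℝ) / 37 - ε) ≤ ((g 3 n : ℕ) : ℝ)) ∧
    (∀ d : ℕ, 1 ≤ d → ∀ ε : ℝ, 0 < ε → ∃ c : ℝ, 0 < c ∧
      (∀ P : Finset (EuclideanSpace ℝ (Fin d)), 2 ≤ P.card → ∃ p ∈ P,
        c * (P.card : ℝ) ^ (2 * (d : ℝ) / ((d : ℝ) ^ 2 + 1) - ε) ≤
          (({r : ℝ | ∃ q ∈ P, q ≠ p ∧ r = dist p q}.ncard : ℕ) : ℝ)) ∧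
      (∀ n : ℕ, 2 ≤ n →
        c * (n : ℝ) ^ (2 * (d : ℝ) / ((d : ℝ) ^ 2 + 1) - ε) ≤ ((g d n : ℕ) : ℝ))) ∧
    (∀ d : ℕ, 3 ≤ d → ∃ (c : ℝ) (e : ℕ), 0 < c ∧
      ∀ P : Finset (EuclideanSpace ℝ (Fin d)), 2 ≤ P.card →
        c * ((P.addEnergy P : ℝ) / (P.card : ℝ) ^ 3) ^ e * (P.card : ℝ) ^ (2 / (d : ℝ)) ≤
          (({r : ℝ | ∃ p ∈ P, ∃ q ∈ P, p ≠ q ∧ r = dist p q}.ncard : ℕ) : ℝ)) ∧
    (∀ d : ℕ, 1 ≤ d → ∀ ε : ℝ, 0 < ε → ∃ c : ℝ, 0 < c ∧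
      ∀ (P : Finset (EuclideanSpace ℝ (Fin d))) (M : ℕ), 2 ≤ P.card →
        (∀ (u : EuclideanSpace ℝ (Fin d)) (b : ℝ), u ≠ 0 →
          {z : EuclideanSpace ℝ (Fin d) | z ∈ P ∧ inner ℝ u z = b}.ncard ≤ M) →
        ∃ p ∈ P, c * ((P.card : ℝ) ^ (1 - ε) / (M : ℝ) ^ (1 - 1 / (d : ℝ))) ≤
          (({r : ℝ | ∃ q ∈ P, q ≠ p ∧ r = dist p q}.ncard : ℕ) : ℝ)) := by
  classical
  have hpinset : ∀ (d : ℕ) (P : Finset (EuclideanSpace ℝ (Fin d))) (p : EuclideanSpace ℝ (Fin d)),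
      {r : ℝ | ∃ q ∈ P, q ≠ p ∧ r = dist p q}.ncard = ((P.erase p).image (dist p)).card := by
    intro d P p
    have h1 : {r : ℝ | ∃ q ∈ P, q ≠ p ∧ r = dist p q} =
        (((P.erase p).image (dist p) : Finset ℝ) : Set ℝ) := by
      ext r
      simp only [Set.mem_ofPred_eq, Finset.coe_image, Set.mem_image, Finset.mem_coe,
        Finset.mem_erase]
      constructor
      · rintro ⟨q, hq, hne, rfl⟩
        exact ⟨q, ⟨hne, hq⟩, rfl⟩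
      · rintro ⟨q, ⟨hne, hq⟩, rfl⟩
        exact ⟨q, hq, hne, rfl⟩
    rw [h1, Set.ncard_coe_finset]
  refine ⟨?_, ?_, ?_, ?_⟩
  · intro ε hε
    obtain ⟨c, hc, h⟩ := Vale.Agent.P054K.space_lower34 ε hε
    refine ⟨c, hc, ?_⟩
    intro n hn
    have hne : {k : ℕ | ∃ P : Finset (EuclideanSpace ℝ (Fin 3)), P.card = n ∧
        {r : ℝ | ∃ p ∈ P, ∃ q ∈ P, p ≠ q ∧ r = dist p q}.ncard = k}.Nonempty := by
      obtain ⟨P, hP⟩ := Infinite.exists_subset_card_eq (EuclideanSpace ℝ (Fin 3)) n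
      exact ⟨_, P, hP, rfl⟩
    obtain ⟨P, hPn, hPk⟩ := Nat.sInf_mem hne
    have hgk : g 3 n = {r : ℝ | ∃ p ∈ P, ∃ q ∈ P, p ≠ q ∧ r = dist p q}.ncard := by
      unfold g
      rw [hPk]
    have h1 : {r : ℝ | ∃ p ∈ P, ∃ q ∈ P, p ≠ q ∧ r = dist p q} =
        ((Vale.Agent.P054K.distances P : Finset ℝ) : Set ℝ) := by
      ext r
      unfold Vale.Agent.P054K.distances
      simp only [Set.mem_ofPred_eq, Finset.coe_image, Set.mem_image, Finset.mem_coe,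
        Finset.mem_offDiag]
      constructor
      · rintro ⟨p, hp, q, hq, hpq, rfl⟩
        exact ⟨(p, q), ⟨hp, hq, hpq⟩, rfl⟩
      · rintro ⟨⟨p, q⟩, ⟨hp, hq, hpq⟩, rfl⟩
        exact ⟨p, hp, q, hq, hpq, rfl⟩
    rw [hgk, h1, Set.ncard_coe_finset, ← hPn]
    exact h P (by omega)
  · intro d hd ε hε
    obtain ⟨c, hc, h⟩ := Vale.Agent.P054K.pinned_lower2 d hd ε hε
    have hpin : ∀ P : Finset (EuclideanSpace ℝ (Fin d)), 2 ≤ P.card → ∃ p ∈ P,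
        c * (P.card : ℝ) ^ (2 * (d : ℝ) / ((d : ℝ) ^ 2 + 1) - ε) ≤
          (({r : ℝ | ∃ q ∈ P, q ≠ p ∧ r = dist p q}.ncard : ℕ) : ℝ) := by
      intro P hP
      obtain ⟨p, hp, hp2⟩ := h P hP
      refine ⟨p, hp, ?_⟩
      rw [hpinset]
      exact hp2
    refine ⟨c, hc, hpin, ?_⟩
    intro n hn
    have hne : {k : ℕ | ∃ P : Finset (EuclideanSpace ℝ (Fin d)), P.card = n ∧
        {r : ℝ | ∃ p ∈ P, ∃ q ∈ P, p ≠ q ∧ r = dist p q}.ncard = k}.Nonempty := by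
      have : Infinite (EuclideanSpace ℝ (Fin d)) := by
        have : Nonempty (Fin d) := ⟨⟨0, by omega⟩⟩
        exact inferInstance
      obtain ⟨P, hP⟩ := Infinite.exists_subset_card_eq (EuclideanSpace ℝ (Fin d)) n
      exact ⟨_, P, hP, rfl⟩
    obtain ⟨P, hPn, hPk⟩ := Nat.sInf_mem hne
    have hgk : g d n = {r : ℝ | ∃ p ∈ P, ∃ q ∈ P, p ≠ q ∧ r = dist p q}.ncard := by
      unfold g
      rw [hPk]
    obtain ⟨p, hp, hp2⟩ := hpin P (by omega)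
    rw [hPn] at hp2
    refine hp2.trans ?_
    rw [hgk]
    have hfin : {r : ℝ | ∃ p ∈ P, ∃ q ∈ P, p ≠ q ∧ r = dist p q}.Finite := by
      apply Set.Finite.subset (Finset.finite_toSet ((P ×ˢ P).image (fun pq => dist pq.1 pq.2)))
      rintro r ⟨a, ha, b, hb, _, rfl⟩
      rw [Finset.mem_coe, Finset.mem_image]
      exact ⟨(a, b), Finset.mem_product.mpr ⟨ha, hb⟩, rfl⟩
    have hsub : {r : ℝ | ∃ q ∈ P, q ≠ p ∧ r = dist p q} ⊆
        {r : ℝ | ∃ p ∈ P, ∃ q ∈ P, p ≠ q ∧ r = dist p q} := by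
      rintro r ⟨q, hq, hne, rfl⟩
      exact ⟨p, hp, q, hq, hne.symm, rfl⟩
    exact_mod_cast Set.ncard_le_ncard hsub hfin
  · intro d hd
    obtain ⟨c, e, hc, h⟩ := Vale.Agent.P054K.dist_of_energy_inst (EuclideanSpace ℝ (Fin d)) d hd
      (by simp)
    refine ⟨c, e, hc, fun P hP => (h P hP).trans (le_of_eq ?_)⟩
    have h1 : {r : ℝ | ∃ p ∈ P, ∃ q ∈ P, p ≠ q ∧ r = dist p q} =
        (((P.offDiag).image (fun p => dist p.1 p.2) : Finset ℝ) : Set ℝ) := by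
      ext r
      simp only [Set.mem_ofPred_eq, Finset.coe_image, Set.mem_image, Finset.mem_coe,
        Finset.mem_offDiag]
      constructor
      · rintro ⟨p, hp, q, hq, hpq, rfl⟩
        exact ⟨(p, q), ⟨hp, hq, hpq⟩, rfl⟩
      · rintro ⟨⟨p, q⟩, ⟨hp, hq, hpq⟩, rfl⟩
        exact ⟨p, hp, q, hq, hpq, rfl⟩
    rw [h1, Set.ncard_coe_finset]
  · intro d hd ε hε
    obtain ⟨c, hc, h⟩ := Vale.Agent.P054K.few_coplanar d hd ε hε
    refine ⟨c, hc, ?_⟩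
    intro P M hP hM
    obtain ⟨p, hp, hp2⟩ := h P M hP (by
      intro u hu b
      have h1 := hM u b hu
      have h2 : {z : EuclideanSpace ℝ (Fin d) | z ∈ P ∧ inner ℝ u z = b} =
          ((P.filter (fun z => inner ℝ u z = b) : Finset (EuclideanSpace ℝ (Fin d))) :
            Set (EuclideanSpace ℝ (Fin d))) := by
        ext z
        simp
      rw [h2, Set.ncard_coe_finset] at h1
      convert h1)
    refine ⟨p, hp, ?_⟩
    rw [hpinset]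
    exact hp2

end Vale.Agent.Results.P054.DistancesAllDims
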