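import Vale.Agent.P060.Bdl.B2

namespace Vale.Agent.Results.P060.Main

open Vale.Agent.P060

/-- Hadwiger's conjecture holds
(1) for every graph in which each vertex has at most `(n - ω) ^ (3 / 4) / 64` non-neighbours;
(2) for every graph with independence number at most two and `n ≥ 16 * ω ^ (4 / 3)`;
(3) for every graph without dominating vertex, with at most `D` non-neighbours per vertex and
`n ^ 3 ≥ 2 ^ 27 * D ^ 7`;
(4) for all graphs with at most `D` non-neighbours per vertex, if it holds for the finitely many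
of them with `n ^ 3 < 2 ^ 27 * D ^ 7`. -/
theorem result :
    (∀ (V : Type) [Fintype V] (G : SimpleGraph V) (D : ℕ),
      (∀ v : V, {w : V | w ≠ v ∧ ¬ G.Adj v w}.ncard ≤ D) →
      (64 * D) ^ 4 ≤ (Fintype.card V - G.cliqueNum) ^ 3 →
      G.chromaticNumber ≤ (hadwigerNumber G : ℕ∞)) ∧
    (∀ (V : Type) [Fintype V] (G : SimpleGraph V),
      G.indepNum ≤ 2 → 4096 * G.cliqueNum ^ 4 ≤ Fintype.card V ^ 3 →
      G.chromaticNumber ≤ (hadwigerNumber G : ℕ∞)) ∧
    (∀ (V : Type) [Fintype V] (G : SimpleGraph V) (D : ℕ),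
      (∀ v : V, ∃ w : V, w ≠ v ∧ ¬ G.Adj v w) →
      (∀ v : V, {w : V | w ≠ v ∧ ¬ G.Adj v w}.ncard ≤ D) →
      2 ^ 27 * D ^ 7 ≤ Fintype.card V ^ 3 →
      G.chromaticNumber ≤ (hadwigerNumber G : ℕ∞)) ∧
    (∀ D : ℕ,
      (∀ (V : Type) [Fintype V] (G : SimpleGraph V),
        (∀ v : V, {w : V | w ≠ v ∧ ¬ G.Adj v w}.ncard ≤ D) →
        Fintype.card V ^ 3 < 2 ^ 27 * D ^ 7 →
        G.chromaticNumber ≤ (hadwigerNumber G : ℕ∞)) →
      (∀ (V : Type) [Fintype V] (G : SimpleGraph V),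
        (∀ v : V, {w : V | w ≠ v ∧ ¬ G.Adj v w}.ncard ≤ D) →
        G.chromaticNumber ≤ (hadwigerNumber G : ℕ∞))) :=
  ⟨fun _ _ G D hD h => hadwiger_of_few_nonneighbours G D hD h,
    fun _ _ G hα h => hadwiger_of_indepNum_two G hα h,
    fun _ _ G D h1 h2 h3 => hadwiger_of_no_dominating G D h1 h2 h3,
    fun D h => finite_reduction D h⟩

end Vale.Agent.Results.P060.Main
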