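import Vale.Agent.P062.Bdl.B1

namespace Vale.Agent.Results.P062.UnlessAdjacent

theorem result : Vale.Agent.P062.MakerWinsUnlessAdjacent :=
  Vale.Agent.P062.makerWinsUnlessAdjacent

end Vale.Agent.Results.P062.UnlessAdjacent
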