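import Vale.Agent.P063.Bdl.B1

set_option autoImplicit false

namespace Vale.Agent.Results.P063.OrderOfWidth

open Vale.Agent.P063

/-- For every `r ≥ 2` and `0 < ε < 1/2` the maximal threshold width of the nontrivial increasing
`r`-uniform hypergraph properties on `[n]` has order exactly `(log n)^{-r/(r-1)}`, the upper
bound holding for every `n ≥ r` and every property. -/
theorem result : ∀ r : ℕ, 2 ≤ r → ∀ ε : ℝ, 0 < ε → ε < 1 / 2 → ∃ c C : ℝ, 0 < c ∧ 0 < C ∧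
    (∀ n : ℕ, r ≤ n → ∀ P : Set (Edge n r → Bool), Admissible P →
      width ε P ≤ C * Real.log n ^ (-((r : ℝ) / ((r : ℝ) - 1)))) ∧
    (∀ n : ℕ, r ≤ n → maxWidth r ε n ≤ C * Real.log n ^ (-((r : ℝ) / ((r : ℝ) - 1)))) ∧
    (∃ n0 : ℕ, ∀ n : ℕ, n0 ≤ n →
      c * Real.log n ^ (-((r : ℝ) / ((r : ℝ) - 1))) ≤ maxWidth r ε n) := by
  intro r hr ε hε0 hε1
  obtain ⟨c, C, hc, hC, h1, h2⟩ := order hr hε0 hε1
  exact ⟨c, C, hc, hC, fun n hn P hP => (width_le_maxWidth hP).trans (h1 n hn), h1, h2⟩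

end Vale.Agent.Results.P063.OrderOfWidth
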