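import Vale.Agent.P064.Bdl.B1

namespace Vale.Agent.Results.P064.SecondKahnKalai

open Vale.Agent.P064

/-- **The second Kahn-Kalai conjecture.** There is a universal constant `C` such that
`p_c(n,H) ≤ C p_E(n,H) log n` for all `n ≥ 2` and all graphs `H` with at least one edge and at
most `n` vertices. -/
theorem result : ∃ C : ℝ, ∀ (n : ℕ) (W : Type*) [Fintype W] (H : SimpleGraph W),
    2 ≤ n → Fintype.card W ≤ n → H ≠ ⊥ → pc n H ≤ C * pE n H * Real.log n := by
  refine ⟨12 * (48 * 2 ^ 72), ?_⟩
  intro n W _ H hn hW hH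
  obtain ⟨j⟩ : Nonempty (W ↪ Fin n) :=
    Function.Embedding.nonempty_of_card_le (by rwa [Fintype.card_fin])
  exact second_kahn_kalai hn H hH j

end Vale.Agent.Results.P064.SecondKahnKalai
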