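import Vale.Agent.P069.Bdl.B1

open Vale.Agent.P069

namespace Vale.Agent.Results.P069.Plain

/-- It is not true that every reflexive Banach space with an equivalent asymptotically midpoint
uniformly convex norm has an equivalent asymptotically uniformly convex norm. -/
theorem result :
    ¬ ∀ (X : Type) [NormedAddCommGroup X] [NormedSpace ℝ X] [CompleteSpace X],
      ¬ FiniteDimensional ℝ X → IsReflexive X → AMUCRenormable X → AUCRenormable X := by
  intro h
  obtain ⟨Z, i1, i2, h1, _, h3, h4, h5, _, h7⟩ :=
    assemble XX (c := 1 / 16) (κ := 1 / 2) (by norm_num) (by norm_num) (by norm_num)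
      isReflexive_XX dense_twoAMUC_XX goodTree_XX
  exact h7 (h Z h3 h4 ⟨normSeminorm ℝ Z, isEquivNorm_norm, h5⟩)

end Vale.Agent.Results.P069.Plain
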