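import Vale.Agent.P074.Bdl.B1

open MeasureTheory Set
open scoped ENNReal NNReal

namespace Vale.Agent.Results.P074.UpperThird

open Vale.Agent.P074

/-- In every dimension `d ≥ 2` no exponent above `1/3` is admissible; in particular `1/2` is not.
The bound `p / (2 (p + 1))` holds for `W_p` and every single pair `K`, `Y` with interior. -/
theorem result (d : ℕ) (hd : 2 ≤ d) :
    (∀ α : ℝ, 0 < α → Admissible d α → α ≤ 1 / 3) ∧
    ¬ Admissible d (1 / 2) ∧
    (∀ K Y : Set (E d), IsCompact K → (interior K).Nonempty →
      IsCompact Y → (interior Y).Nonempty →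
      ∀ p α : ℝ, 0 < p → 0 ≤ α → ∀ C : ℝ≥0, StabilityEstimate (unif K) Y p α C →
        α ≤ p / (2 * (p + 1))) := by
  have h3 : ∀ K Y : Set (E d), IsCompact K → (interior K).Nonempty →
      IsCompact Y → (interior Y).Nonempty →
      ∀ p α : ℝ, 0 < p → 0 ≤ α → ∀ C : ℝ≥0, StabilityEstimate (unif K) Y p α C →
        α ≤ p / (2 * (p + 1)) := by
    intro K Y hK hKi hY hYi p α hp hα C h
    exact stability_exponent_le hd hK hKi hY hYi hp hα h
  have h1 : ∀ α : ℝ, 0 < α → Admissible d α → α ≤ 1 / 3 := by
    intro α hα h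
    have hball : (interior (Metric.closedBall (0 : E d) 1)).Nonempty := by
      refine ⟨0, ?_⟩
      apply interior_mono Metric.ball_subset_closedBall
      rw [Metric.isOpen_ball.interior_eq]
      exact Metric.mem_ball_self one_pos
    obtain ⟨C, hC⟩ := h (Metric.closedBall 0 1) (Metric.closedBall 0 1)
      (isCompact_closedBall 0 1) (convex_closedBall 0 1) hball (isCompact_closedBall 0 1)
      ⟨0, Metric.mem_closedBall_self zero_le_one⟩
    have := h3 _ _ (isCompact_closedBall 0 1) hball (isCompact_closedBall 0 1) hball 2 α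
      (by norm_num) hα.le C hC
    norm_num at this
    linarith
  refine ⟨h1, ?_, h3⟩
  intro h
  have := h1 (1 / 2) (by norm_num) h
  norm_num at this

end Vale.Agent.Results.P074.UpperThird
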