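import Vale.Agent.P079.Bdl.B1

namespace Vale.Agent.Results.P079.SpanReflexive

universe u

/-- Let `C` be a nonempty closed bounded convex subset of any real normed space whose closed linear
span is reflexive. Then every nonexpansive selfmap of `C` has a fixed point. -/
theorem result (X : Type u) [NormedAddCommGroup X] [NormedSpace ℝ X] (C : Set X)
    (hspan : Function.Surjective
      (NormedSpace.inclusionInDoubleDual ℝ (Submodule.span ℝ C).topologicalClosure))
    (hne : C.Nonempty) (hcl : IsClosed C) (hb : Bornology.IsBounded C)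
    (hco : Convex ℝ C) (T : C → C)
    (hT : ∀ a b : C, ‖(T a : X) - (T b : X)‖ ≤ ‖(a : X) - (b : X)‖) :
    ∃ a : C, T a = a := by
  classical
  have h := Vale.Agent.P079.exists_fixed_point_span hspan hne hcl hb hco
    (T := fun x => if h : x ∈ C then (T ⟨x, h⟩ : X) else x)
    (by
      intro x hx
      simp only [dif_pos hx]
      exact (T ⟨x, hx⟩).2)
    (by
      intro x hx y hy
      simp only [dif_pos hx, dif_pos hy]
      exact hT ⟨x, hx⟩ ⟨y, hy⟩)
  obtain ⟨x, hx, hfix⟩ := h
  refine ⟨⟨x, hx⟩, Subtype.ext ?_⟩
  simp only [dif_pos hx] at hfix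
  exact hfix

end Vale.Agent.Results.P079.SpanReflexive
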