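import Vale.Agent.P080.Bdl.B2

namespace Vale.Agent.Results.P080.Liouville

open Vale.Agent.P080 Metric MeasureTheory
open scoped RealInnerProductSpace

/-- Liouville theorem for infinity-harmonic functions of linear growth in every dimension, and,
for all infinity-harmonic functions on balls, uniform flatness at small scales and uniformly
vanishing mean oscillation of the gradient, with a modulus depending only on the dimension. -/
theorem result :
    (∀ (d : ℕ) (u : EuclideanSpace ℝ (Fin d) → ℝ) (C : ℝ),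
      IsInfHarmonicOn u Set.univ → (∀ x, |u x| ≤ C * (1 + ‖x‖)) →
      ∃ q : EuclideanSpace ℝ (Fin d), ∀ x, u x = u 0 + ⟪q, x⟫) ∧
    ∀ (d : ℕ) (ε : ℝ), 0 < ε → ∃ δ > 0,
      ∀ (u : EuclideanSpace ℝ (Fin d) → ℝ) (x₀ : EuclideanSpace ℝ (Fin d)) (R M : ℝ),
        0 < R → IsInfHarmonicOn u (ball x₀ R) →
        (∀ x ∈ ball x₀ R, ∀ y ∈ ball x₀ R, u x - u y ≤ M) →
        ∀ x, ‖x - x₀‖ ≤ R / 2 → ∀ r, 0 < r → r ≤ δ * R →
          (∃ q : EuclideanSpace ℝ (Fin d), ∀ y, ‖y - x‖ ≤ r →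
            |u y - u x - ⟪q, y - x⟫| ≤ ε * (M / R) * r) ∧
          ∃ q : EuclideanSpace ℝ (Fin d),
            ∫⁻ y in ball x r, ENNReal.ofReal (‖gradient u y - q‖ ^ 2) ≤
              ENNReal.ofReal (ε * (M / R) ^ 2) * volume (ball x r) := by
  refine ⟨fun d u C hu hC => Liou.liouville_harmonic d u C hu hC, fun d ε hε => ?_⟩
  obtain ⟨δ₁, h₁, h⟩ := Liou.uniform_flat_harmonic d ε hε
  obtain ⟨δ₂, h₂, h'⟩ := Liou.vmo_harmonic d ε hε
  refine ⟨min δ₁ δ₂, lt_min h₁ h₂, fun u x₀ R M hR hu hM x hx r hr hrR => ⟨?_, ?_⟩⟩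
  · exact h u x₀ R M hR hu hM x hx r hr
      (hrR.trans (mul_le_mul_of_nonneg_right (min_le_left _ _) hR.le))
  · exact h' u x₀ R M hR hu hM x hx r hr
      (hrR.trans (mul_le_mul_of_nonneg_right (min_le_right _ _) hR.le))

end Vale.Agent.Results.P080.Liouville
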