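import Vale.Agent.P082.Bd8.B5

/-!
# Vanishing of all bounded Hochschild cohomology for finite von Neumann algebras that contain
arbitrarily large matrix algebras (in particular all type II₁ algebras)
-/

namespace Vale.Agent.Results.P082.FiniteLarge

open Vale.Agent.P082

/-- Let `P` be a finite von Neumann algebra (with a separating family of normal traces) containing
unital copies of arbitrarily large matrix algebras, for example any type `II₁` von Neumann algebra.
Then `H_b^k(P,P) = 0` for all `k ≥ 1` (here `k + 1` runs over all positive integers). -/
theorem result {H : Type*} [NormedAddCommGroup H] [InnerProductSpace ℂ H] [CompleteSpace H]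
    (P : VonNeumannAlgebra H) (hfin : IsFiniteVN P) (hP : ContainsLargeMatrices P) :
    ∀ k : ℕ, BoundedCohomologyVanishes P.toStarSubalgebra k :=
  KR.vanishing_finite P hfin hP

end Vale.Agent.Results.P082.FiniteLarge
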