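import Vale.Agent.P083.Bdl.B1

namespace Vale.Agent.Results.P083.NoLift

open Vale.Agent.P083 Vale.Agent.P083N

/-- **Kirchberg's embedding problem has a negative answer.** There is a separable unital
C*-algebra `A ≠ 0` which does not embed unitally into a norm ultrapower of the Cuntz algebra `O₂`
(formulation in terms of lifts of embeddings to bounded sequences). -/
theorem result : ∃ (A : Type) (_ : CStarAlgebra A), Nontrivial A ∧
    TopologicalSpace.SeparableSpace A ∧
    ∀ (O : Type) [CStarAlgebra O] [Nontrivial O] (s₁ s₂ : O), CuntzTwo s₁ s₂ →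
      ∀ ω : Ultrafilter ℕ, ¬ EmbedsIn A O ω :=
  main

end Vale.Agent.Results.P083.NoLift
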