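import Vale.Agent.P090.Bdl.B1

/-! A negative answer to Kalton's question, together with bounded counterexamples for every
constant. -/

namespace Vale.Agent.Results.P090.KaltonNegativeBounded

open Vale.Agent.P090

/-- (1) There is a countable `1`-separated metric space `M` such that `F(M)` (for every choice of
the base point) fails the bounded approximation property. (2) For every `lam` there is a bounded
countable `1`-separated metric space `M` such that `F(M)` fails the `lam`-bounded approximation
property. All distances are integers. -/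
theorem result :
    (∃ (M : Type) (_ : MetricSpace M), Nonempty M ∧ Countable M ∧
      (∀ x y : M, ∃ n : ℕ, dist x y = n) ∧ ∀ o : M, ¬ HasBAP (LipFree M o)) ∧
    ∀ lam : ℝ, ∃ (M : Type) (_ : MetricSpace M), Nonempty M ∧ Countable M ∧
      (∀ x y : M, ∃ n : ℕ, dist x y = n) ∧ (∃ D : ℝ, ∀ x y : M, dist x y ≤ D) ∧
      ∀ o : M, ¬ HasBAPWith lam (LipFree M o) := by
  refine ⟨⟨MM, inferInstance, ⟨Glue.base blk⟩, inferInstance, fun x y => ⟨_, rfl⟩, fun o h => ?_⟩,
    fun lam => ?_⟩
  · obtain ⟨lam, h1, h2⟩ := hasBAP_base (Glue.base blk) o h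
    exact no_bap lam h1 h2
  · obtain ⟨j, hD, hj⟩ := exists_bounded lam
    exact ⟨MG j, inferInstance, ⟨Glue.base _⟩, inferInstance, fun x y => ⟨_, rfl⟩, hD,
      fun o h => hj (hasBAPWith_base _ o h)⟩

end Vale.Agent.Results.P090.KaltonNegativeBounded
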