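import Vale.Agent.P093.HB.H4

open Vale.Agent.P093 Filter TopologicalSpace
open scoped ENNReal

namespace Vale.Agent.Results.P093.HomologicalMain

theorem result :
    ∀ (X : Type*) [TopologicalSpace X] [CompactSpace X] [MetrizableSpace X] [Infinite X]
      (h : X ≃ₜ X), IsMinimalHomeo h →
      (∀ (A : Type*) [CStarAlgebra A] [PartialOrder A] [StarOrderedRing A],
        IsCrossedProduct h A →
        (HomDetected h → meanDim h / 2 ≤ radiusOfComparison A) ∧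
        (∀ (𝒰 : Set (Set X)) (κ : ℕ), IsFinOpenCover 𝒰 →
          2 * κ * homRate h 𝒰 ≤
            radiusOfComparison A + κ * (4 * κ + 1) / (2 * κ + 1) * coverRate h 𝒰)) ∧
      (meanDim h ≠ ∞ → homMeanDim h = meanDim h → HomDetected h) ∧
      homMeanDim h ≤ meanDim h ∧
      (∀ 𝒲 : Set (Set X), IsFinOpenCover 𝒲 → homOrder 𝒲 ≤ coverDim 𝒲 ∧ coverRate h 𝒲 ≠ ∞ ∧
        ∀ (B : Set X) (n : ℕ), NerveClass 𝒲 B n → n ≤ homOrder 𝒲) ∧
      (∀ (q : ℕ) (f : X → Fin q → unitInterval) (N : ℕ → ℕ) (J : ℕ → Finset (ℕ × Fin q))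
        (Ψ : ℕ → (ℕ → Fin q → unitInterval) → X), Continuous f → Tendsto N atTop atTop →
        (∀ k, Continuous (Ψ k)) →
        (∀ k, ∀ p ∈ J k, p.1 < N k ∧ ∀ y, f ((h ^ p.1) (Ψ k y)) p.2 = y p.1 p.2) →
        limsup (fun k => ((J k).card : ℝ≥0∞) / N k) atTop ≤ homMeanDim h) :=
  Hom.assembled

end Vale.Agent.Results.P093.HomologicalMain
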