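import Vale.Agent.P093.Bdl.B1

open Vale.Agent.P093 Filter TopologicalSpace
open scoped ENNReal

namespace Vale.Agent.Results.P093.Main

theorem result :
    (∀ (X : Type*) [TopologicalSpace X] [CompactSpace X] [MetrizableSpace X] [Infinite X]
      (h : X ≃ₜ X), IsMinimalHomeo h →
      (∀ (K Y : Type*) [TopologicalSpace K] [CompactSpace K] [MetrizableSpace K]
        [TopologicalSpace Y] [CompactSpace Y] [T2Space Y]
        (g : Y ≃ₜ Y) (c : X → (ℤ → K) × Y) (E : Set K) (ρ : ℝ),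
        IsEmbeddedIn h g c → ContainsCubes E → FewOutside c ρ → ManyFree c E ρ →
        meanDim h ≤ meanDim g + coveringDim K * ENNReal.ofReal ρ ∧
        RcGE h (coveringDim K * ENNReal.ofReal ρ / 2)) ∧
      (∀ (q : ℕ) (f : X → Fin q → unitInterval) (O : Set unitInterval) (N : ℕ → ℕ)
        (J : ℕ → Finset (ℕ × Fin q)) (Ψ : ℕ → (ℕ → Fin q → unitInterval) → X),
        FreeCubes h f O N J Ψ →
        RcGE h (limsup (fun k => ((J k).card : ℝ≥0∞) / N k) atTop / 2))) ∧
    (∀ t : ℝ≥0∞, ∃ (X : Type) (_ : TopologicalSpace X) (_ : CompactSpace X)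
      (_ : MetrizableSpace X) (_ : Infinite X) (h : X ≃ₜ X), IsMinimalHomeo h ∧
      meanDim h ≤ t ∧ (∃ (A : Type) (_ : CStarAlgebra A), IsCrossed h A) ∧ RcGE h (t / 2)) :=
  ⟨fun _ _ _ _ _ => minimal_main, existence_main⟩

end Vale.Agent.Results.P093.Main
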