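import Vale.Agent.P095.Bdl.B19

open scoped TensorProduct

namespace Vale.Agent.Results.P095.UnitalCase

open Vale.Agent.P095 Vale.Agent.P101

universe u w

/-- Let `A` be a separable, simple, nuclear unital C*-algebra which is isomorphic to its tensor
product `B` with the Jiang-Su algebra `Z`, let `G` be a countable amenable group, let `α` be an
action of `G` on `A` and let `β` be the action `α ⊗ id` on `B`. Then `α` and `β` are cocycle
conjugate. -/
theorem result {A Z B : Type u} [CStarAlgebra A] [CStarAlgebra Z] [CStarAlgebra B]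
    [TopologicalSpace.SeparableSpace A] [IsSimpleRing A] (hA : Vale.Agent.P083.IsNuclear A)
    (hZ : IsJiangSuAlgebra Z) (hZ' : IsStronglySelfAbsorbing Z)
    (i : A →⋆ₐ[ℂ] B) (j : Z →⋆ₐ[ℂ] B) (hB : IsTensorCompletion i j)
    (hAB : Nonempty (A ≃⋆ₐ[ℂ] B)) {G : Type w} [Group G] [Countable G] (hG : IsAmenable G)
    (α : G →* (A ≃⋆ₐ[ℂ] A)) (β : G →* (B ≃⋆ₐ[ℂ] B)) (hβ : IsTensorTrivial i j α β) :
    CocycleConjugate α β :=
  Vale.Agent.P095R.UConv.unital_of_general hA hZ hZ' i j hB hAB hG α β hβ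

end Vale.Agent.Results.P095.UnitalCase
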