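import Vale.Agent.P096.Bd8.B20

universe u

namespace Vale.Agent.Results.P096.SemifiniteFactors

open Vale.Agent.P096.H468 (kkDist)
open Vale.Agent.P096.Lin (NearConj)
open Vale.Agent.P096.Fin

/-- **The strong Kadison-Kastler conjecture for semifinite factors**, with a linear estimate and
an absolute constant: there is `C > 0` such that for every Hilbert space `H`, every semifinite
factor `M` on `H` and every von Neumann algebra `N` on `H` with `C d(M, N) ≤ 1` there is a unitary
`u` on `H` with `u M u* = N` and `‖u - 1‖ ≤ C d(M, N)`. -/
theorem result : ∃ C : ℝ, 0 < C ∧ ∀ (H : Type u) [NormedAddCommGroup H] [InnerProductSpace ℂ H]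
    [CompleteSpace H] (M N : VonNeumannAlgebra H), SemifiniteFactor M →
    C * kkDist M N ≤ 1 → NearConj M N (C * kkDist M N) :=
  semifinite_factor_kk

end Vale.Agent.Results.P096.SemifiniteFactors
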