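import Vale.Agent.P107.Bdl.B4

/-!
Every classical solution of the three-dimensional one-species relativistic Vlasov-Maxwell system
on `[0,T)`, `0 < T < ∞`, has bounded momentum support on `[0,T)`: the only possible mechanism of
breakdown (Glassey-Strauss) never occurs. There is no smallness or symmetry assumption.
-/

open MeasureTheory Set

namespace Vale.Agent.P107.RVM

theorem _root_.Vale.Agent.Results.P107.MomentaBounded.result {T : ℝ} (hT : 0 < T)
    {f : ℝ → V3 → V3 → ℝ} {E B : ℝ → V3 → V3} (h : IsClassicalSolution T f E B) :
    BoundedMomenta T f :=
  boundedMomenta_of (momentum_bounded hT (isClassicalSolution_ff h))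

end Vale.Agent.P107.RVM
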