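import Vale.Agent.P120.Bdl.B4
import Vale.Agent.P120.FinalQ

open MeasureTheory

namespace Vale.Agent.Results.P120.DavidSemmesQuant

open Vale.Agent.P120

/-- **The David-Semmes problem for Riesz transforms**, with constants depending only on the
dimensions, the regularity constant and the norm of the Riesz transform. -/
theorem result (n d : ℕ) (hn : 1 ≤ n) (hnd : n < d) (CAD CR : ℝ) :
    ∃ (θ : ℝ) (M : NNReal), 0 < θ ∧ ∀ μ : Measure (Eu d), IsLocallyFiniteMeasure μ →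
      ADRegularWith n CAD μ → RieszBoundedWith n CR μ → UniformlyRectifiableWith n θ M μ := by
  by_cases h : 1 ≤ CAD ∧ 0 ≤ CR
  · obtain ⟨θ, M, hθ, H⟩ := main_quant n d hn hnd.le CAD CR h.1 h.2
    refine ⟨θ, M, hθ, fun μ _ h1 h2 => ⟨hθ, fun x hx r hr hrD => ?_⟩⟩
    obtain ⟨g, hg, hm⟩ := H μ h1.2 (fun f hf ε hε => (h2.2 f hf ε hε).2) x hx r hr hrD
    exact ⟨g, hg.lipschitzOnWith, hm⟩
  · exact ⟨1, 0, one_pos, fun μ _ h1 h2 => absurd ⟨h1.1, h2.1⟩ h⟩

end Vale.Agent.Results.P120.DavidSemmesQuant
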