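import Vale.Agent.P121.Bdl.B1

open MeasureTheory Set
open scoped ENNReal NNReal

namespace Vale.Agent.Results.P121.General

/-- For every number `N ≥ 3` of particles and every dimension `d ≥ 2` there is an absolutely
continuous probability measure, with bounded density and compact support and with finite
Kantorovich value, which has no optimal Monge plan for the `N`-marginal Coulomb cost. The case
`N = 3`, `d = 3` is the question. -/
theorem result (N d : ℕ) (hN : 3 ≤ N) (hd : 2 ≤ d) :
    ∃ μ : Measure (EuclideanSpace ℝ (Fin d)),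
      IsProbabilityMeasure μ ∧ μ ≪ volume ∧
      (∃ C : ℝ≥0, μ ≤ C • volume) ∧
      (∃ S : Set (EuclideanSpace ℝ (Fin d)), IsCompact S ∧ μ Sᶜ = 0) ∧
      Vale.Agent.P121.kantorovichN N μ < ∞ ∧
      ¬ Vale.Agent.P121.HasOptimalMongePlanN N μ := by
  obtain ⟨μ, h1, h2, ⟨C, h3⟩, h4, h5⟩ :=
    Vale.Agent.P121.main_general (E := EuclideanSpace ℝ (Fin d)) hN
      (e₁ := EuclideanSpace.single (⟨0, by omega⟩ : Fin d) (1 : ℝ))
      (e₂ := EuclideanSpace.single (⟨1, by omega⟩ : Fin d) (1 : ℝ)) (by simp) (by simp)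
      (by rw [EuclideanSpace.inner_single_left]; simp)
  refine ⟨μ, h1, ?_, ⟨C, h3⟩, h2, h4.lt_top, ?_⟩
  · exact (Measure.absolutelyContinuous_of_le h3).trans
      (Measure.smul_absolutelyContinuous)
  · rintro ⟨T, hT, hcost⟩
    exact h5 T hT hcost

end Vale.Agent.Results.P121.General
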