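import Vale.Agent.P123.Bdl.B1
import Vale.Agent.P123.Bdl.B2

namespace Vale.Agent.Results.P123.Main

/-- The Crouzeix-Palencia constant `1 + √2` can be lowered, uniformly in the Hilbert space, the
bounded operator and the polynomial. The supremum is over the numerical range of `A`
(Mathlib's `inner ℂ x (A x)` is linear in `A x`). -/
theorem result.{u} :
    ∀ (H : Type u) [NormedAddCommGroup H] [InnerProductSpace ℂ H] [CompleteSpace H] [Nontrivial H]
      (A : H →L[ℂ] H) (P : Polynomial ℂ),
      ‖Polynomial.aeval A P‖ ≤ (1 + Real.sqrt 2 - 4 / 10 ^ 13) *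
        sSup ((fun z => ‖P.eval z‖) '' {z : ℂ | ∃ x : H, ‖x‖ = 1 ∧ inner ℂ x (A x) = z}) := by
  intro H _ _ _ _ A P
  have h := Vale.Agent.P123.uniform_bound_of_layer' (c1 := 3) (c2 := 1)
    (ε0 := 432 / 1000000 * ((1 / 20) ^ 5 / 6)) (d := 4 / 10 ^ 13) (by norm_num) (by norm_num)
    (by norm_num) (by norm_num) (by norm_num) (by norm_num)
    (fun D φ hφ t => Vale.Agent.P123.lemmaA hφ t) A P
  exact h

end Vale.Agent.Results.P123.Main
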