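import Vale.Agent.P126.MathlibUsed
import Vale.Agent.P126.Defs
import Vale.Agent.P126.Bdl.B1
import Vale.Agent.P126.CQ.Cube

open Pointwise

namespace Vale.Agent.Results.P126.PowerLaw

open Vale.Agent.P126 Vale.Agent.P126.CQ

/-- Duality of metric entropy fails by a power of the entropy at every fixed scale, already for
cubes; and it holds up to an arbitrarily small power loss at large scales. -/
theorem result :
    (∀ a : ℝ, 1 ≤ a → ∀ M : ℝ, ∃ n : ℕ, 1 ≤ n ∧ ∃ (ρ : ℝ) (K : Set (EuclideanSpace ℝ (Fin n))),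
      0 < ρ ∧ IsSymmBody K ∧ IsSymmBody (cube n ρ) ∧
      M ≤ Real.log (coveringNumber K (cube n ρ)) ∧
      Real.log (coveringNumber (polarBody (cube n ρ)) (a⁻¹ • polarBody K)) ≤
        (Real.log (coveringNumber K (cube n ρ))) ^ (1 - Real.exp (-(60 * a)))) ∧
    (∀ a b : ℝ, 1 ≤ a → 1 ≤ b → ∃ n : ℕ, 1 ≤ n ∧
      Real.log n ≤ (80 * a * b) ^ Real.exp (60 * a) ∧
      ∃ (ρ : ℝ) (K : Set (EuclideanSpace ℝ (Fin n))),
      0 < ρ ∧ IsSymmBody K ∧ IsSymmBody (cube n ρ) ∧
      b * Real.log (coveringNumber (polarBody (cube n ρ)) (a⁻¹ • polarBody K)) <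
        Real.log (coveringNumber K (cube n ρ))) ∧
    (¬ ∃ a b : ℝ, 1 ≤ a ∧ 1 ≤ b ∧ ∀ n : ℕ, 1 ≤ n → ∀ K L : Set (EuclideanSpace ℝ (Fin n)),
      IsSymmBody K → IsSymmBody L →
        1 / b * Real.log (coveringNumber (polarBody L) (a • polarBody K)) ≤
            Real.log (coveringNumber K L) ∧
        Real.log (coveringNumber K L) ≤
          b * Real.log (coveringNumber (polarBody L) (a⁻¹ • polarBody K))) ∧
    (∀ J : ℕ, 2 ≤ J → ∀ (n : ℕ) (K L : Set (EuclideanSpace ℝ (Fin n))),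
      IsSymmBody K → IsSymmBody L →
        (Real.log (coveringNumber K L)) ^ (1 - 1 / (J : ℝ)) ≤
            4608 * J * Real.log J *
              Real.log (coveringNumber (polarBody L) ((384 * J : ℝ)⁻¹ • polarBody K)) ∧
        (Real.log (coveringNumber (polarBody L) ((384 * J : ℝ) • polarBody K))) ^
              (1 - 1 / (J : ℝ)) ≤
            4608 * J * Real.log J * Real.log (coveringNumber K L)) ∧
    (∀ κ : ℝ, 0 < κ → ∃ a b : ℝ, 1 ≤ a ∧ 1 ≤ b ∧
      ∀ (n : ℕ) (K L : Set (EuclideanSpace ℝ (Fin n))), IsSymmBody K → IsSymmBody L →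
        1 / b * (Real.log (coveringNumber (polarBody L) (a • polarBody K))) ^ (1 / (1 + κ)) ≤
            Real.log (coveringNumber K L) ∧
        Real.log (coveringNumber K L) ≤
          b * (Real.log (coveringNumber (polarBody L) (a⁻¹ • polarBody K))) ^ (1 + κ)) ∧
    (∀ (n : ℕ) (K L : Set (EuclideanSpace ℝ (Fin n))), IsSymmBody K → IsSymmBody L →
      (∀ s : ℝ, s = 2 + Real.log (1 + Real.log (coveringNumber K L)) →
        Real.log (coveringNumber K L) ≤ 40000 * s * Real.log s *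
          Real.log (coveringNumber (polarBody L) ((1000 * s)⁻¹ • polarBody K))) ∧
      (∀ s : ℝ, s = 2 + Real.log (1 + Real.log (coveringNumber (polarBody L) (polarBody K))) →
        Real.log (coveringNumber (polarBody L) ((1000 * s) • polarBody K)) ≤
          40000 * s * Real.log s * Real.log (coveringNumber K L))) := by
  have hclaim : ∀ k, Claim2 k := fun k => Nat.rec claim2_zero (fun k h => claim2_succ k h) k
  have hcore : Core2 := core2_of_claim2 hclaim
  have hdim : ∀ a b : ℝ, 1 ≤ a → 1 ≤ b → ∃ n : ℕ, 1 ≤ n ∧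
      Real.log n ≤ (80 * a * b) ^ Real.exp (60 * a) ∧
      ∃ (ρ : ℝ) (K : Set (EuclideanSpace ℝ (Fin n))),
      0 < ρ ∧ IsSymmBody K ∧ IsSymmBody (cube n ρ) ∧
      b * Real.log (coveringNumber (polarBody (cube n ρ)) (a⁻¹ • polarBody K)) <
        Real.log (coveringNumber K (cube n ρ)) := by
    intro a b ha hb
    obtain ⟨n, hn, K, ρ, h1, h2, h3, h4, h5⟩ := dim_bound hcore a b ha hb
    exact ⟨n, hn, h4, ρ, K, h1, h2, h3, h5⟩
  refine ⟨?_, hdim, ?_, fun _ hJ _ _ _ hK hL => ⟨main_upper hK hL hJ, main_lower hK hL hJ⟩,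
    fun _ hκ => power_loss hκ,
    fun _ _ _ hK hL => ⟨fun _ hs => loglog_form hK hL hs, fun _ hs => loglog_form_dual hK hL hs⟩⟩
  · intro a ha M
    obtain ⟨n, hn, K, ρ, h1, h2, h3, h4, h5⟩ := power_gap hcore a ha M
    exact ⟨n, hn, ρ, K, h1, h2, h3, h4, h5⟩
  · rintro ⟨a, b, ha, hb, h⟩
    obtain ⟨n, hn, -, ρ, K, -, hK, hL, hlt⟩ := hdim a b ha hb
    exact absurd (h n hn K _ hK hL).2 (not_le.2 hlt)

end Vale.Agent.Results.P126.PowerLaw
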