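import Vale.Agent.P140.Bdl.B11

open MeasureTheory Set
open scoped ENNReal
open Vale.Agent.P140 Vale.Agent.P140.Stt

namespace Vale.Agent.Results.P140.Main

/-- time integral over `(a, b]` -/
noncomputable def tInt (a b : ℝ) (f : ℝ → ℝ≥0∞) : ℝ≥0∞ := ∫⁻ t in Ioc a b, f t

/-- the results -/
structure Statement {E X : Type} [NormedAddCommGroup E] [InnerProductSpace ℝ E]
    [MeasureSpace E] [MeasureSpace X] [AddCommGroup X] (π : E → X) : Prop where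
  homogeneous : ∀ F0 F G, IsSol π F0 F → IsSol π F0 G → (∀ x y v, F0 (x, v) = F0 (y, v)) →
    ∀ t, 0 ≤ t → F t =ᵐ[volume] G t
  large : ∀ A α ρ c : ℝ, 0 < α → 0 < ρ → 0 < c → ∀ u : E, ∃ ε : ℝ, 0 < ε ∧ ∀ F0 F G,
    IsSol π F0 F → IsSol π F0 G → (∀ᵐ p, F0 p ≤ A * Real.exp (-(α * ‖p.2‖ ^ 2))) →
    ∫⁻ p, ENNReal.ofReal |F0 p - ρ * Real.exp (-(c * ‖p.2 - u‖ ^ 2))| ≤ ENNReal.ofReal ε →
    ∀ t, 0 ≤ t → F t =ᵐ[volume] G t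
  localUnique : ∀ A α : ℝ, 0 < α → ∃ T : ℝ, 0 < T ∧ ∀ F0 F G, IsSol π F0 F → IsSol π F0 G →
    (∀ᵐ p, F0 p ≤ A * Real.exp (-(α * ‖p.2‖ ^ 2))) → ∀ t ∈ Icc 0 T, F t =ᵐ[volume] G t
  weakStrong : ∀ T, 0 < T → ∀ F0 G0 F G, IsSol π F0 F → IsSol π G0 G →
    ∀ A B : ℝ → ℝ≥0∞, Measurable A → Measurable B →
      (∀ᵐ t, ∀ᵐ x, ∫⁻ v, ENNReal.ofReal ((1 + ‖v‖) ^ 2 * min (F t (x, v)) (G t (x, v))) ≤ A t ∧
        ∫⁻ v, ENNReal.ofReal ((1 + ‖v‖) ^ 3 * min (F t (x, v)) (G t (x, v))) ≤ B t) →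
      (F0 = G0 → tInt 0 T A < ⊤ → (∀ τ, 0 < τ → tInt τ T B < ⊤) →
        tInt 0 T (fun t => B t * tInt 0 t A) < ⊤ → ∀ t ∈ Icc 0 T, F t =ᵐ[volume] G t) ∧
      (tInt 0 T B < ⊤ → 
        ∫⁻ p, ENNReal.ofReal ((1 + ‖p.2‖ ^ 2) * |F T p - G T p|) ≤
          ENNReal.ofReal (Real.exp (16 * Real.pi * (tInt 0 T B).toReal)) *
            ∫⁻ p, ENNReal.ofReal ((1 + ‖p.2‖ ^ 2) * |F0 p - G0 p|))

theorem result (π : EuclideanSpace ℝ (Fin 3) → UnitAddTorus (Fin 3))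
    (hπ : ∀ x i, π x i = (x i : UnitAddCircle)) : Statement π :=
  ⟨stt_hom hπ, stt_large hπ, stt_loc hπ, stt_ws hπ⟩

end Vale.Agent.Results.P140.Main
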