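import Vale.Agent.P142.Bdl.B1

/-!
# P142: Brennan's conjecture, with the integral means spectrum

`B_S(-2) = 1`, together with the integrability statements of Brennan's conjecture.
-/

open MeasureTheory Metric Set
open scoped ENNReal

namespace Vale.Agent.Results.P142.BrennanSpectrum

/-- `B_S(-2) = 1` and Brennan's conjecture. -/
theorem result :
    Vale.Agent.P142.BS (-2) = 1 ∧
    (∀ (W : Set ℂ) (φ : ℂ → ℂ), IsOpen W → DifferentiableOn ℂ φ W → BijOn φ W (ball 0 1) →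
      ∀ s : ℝ, 4 / 3 < s → s < 4 →
        ∫⁻ w in W, ENNReal.ofReal (‖deriv φ w‖ ^ s) < ⊤) ∧
    (∀ f : ℂ → ℂ, DifferentiableOn ℂ f (ball 0 1) → InjOn f (ball 0 1) →
      ∀ t : ℝ, -2 < t → t < 2 / 3 →
        ∫⁻ z in ball (0 : ℂ) 1, ENNReal.ofReal (‖deriv f z‖ ^ t) < ⊤) := by
  have hF : Vale.Agent.P142.Brn.BlockF :=
    Vale.Agent.P142.Brn.blockF_of Vale.Agent.P142.Brn.blockI Vale.Agent.P142.Brn.Par6.blockP
  exact ⟨le_antisymm (Vale.Agent.P142.Brn.G1s.BS_neg_two_le hF) Vale.Agent.P142.Brn.one_le_BS,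
    Vale.Agent.P142.Brn.brennan_of hF⟩

end Vale.Agent.Results.P142.BrennanSpectrum
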