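import Mathlib
import Vale.Agent.P152.Bd3.B24
import Vale.Agent.P152.Bd3.B1
import Vale.Agent.P152.Bd3.B2
import Vale.Agent.P152.Bd3.B3
import Vale.Agent.P152.Bd3.B4
import Vale.Agent.P152.Bd3.B5
import Vale.Agent.P152.Bd3.B6
import Vale.Agent.P152.Bd3.B7
import Vale.Agent.P152.Bd3.B8
import Vale.Agent.P152.Bd3.B9
import Vale.Agent.P152.Bd3.B10
import Vale.Agent.P152.Bd3.B11
import Vale.Agent.P152.Bd3.B12
import Vale.Agent.P152.Bd3.B13
import Vale.Agent.P152.Bd3.B14
import Vale.Agent.P152.Bd3.B15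
import Vale.Agent.P152.Bd3.B16
import Vale.Agent.P152.Bd3.B17
import Vale.Agent.P152.Bd3.B19
import Vale.Agent.P152.Bd3.B21
import Vale.Agent.P152.Bd3.B23
import Vale.Agent.P152.Bd3.K_GFF_S_Defs

/-!
The height function of the self-dual Ashkin-Teller model with `U ≤ 0` in the full plane converges
to the Gaussian free field.
-/

open Filter Topology MeasureTheory ProbabilityTheory Vale.Agent.P145.FP

/-- Let `(J, U)` be a point of the self-dual line with `U ≤ 0` and `t = (1 + e^{4U})^{-1/2}`.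
There is an infinite-volume Gibbs measure `Q` of the height representation on pairs `(τ, τ†)` of
spin configurations on the vertices and faces of `ℤ²`, invariant under translations and under the
flip of all `τ` and the flip of all `τ†`, with decorrelation of all even spin products, such that
the height function exists a.s. and `H_δ` converges in law, as `δ → 0`, to `s` times the Gaussian
free field on the plane modulo constants with covariance `2π (-Δ)⁻¹`, for some `s > 0`. -/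
theorem Vale.Agent.Results.P145.FullPlaneGFF.result (J U : ℝ) (_hJ : 0 < J) (hU : U ≤ 0)
    (_hself : Real.sinh (2 * J) = Real.exp (-2 * U)) :
    ∃ Q : Measure Conf, ∃ _ : IsProbabilityMeasure Q,
      Gibbs (1 / √(1 + Real.exp (4 * U))) Q ∧
      (∀ a : ℤ × ℤ, Q.map (tr a) = Q) ∧ Q.map flipV = Q ∧ Q.map flipF = Q ∧
      (∀ X Y : Finset Site, Even X.card → Even Y.card → Tendsto (fun a : ℤ × ℤ =>
        ∫ σ, (∏ x ∈ X, sp (σ x)) * ∏ y ∈ Y, sp (tr a σ y) ∂Q) cofinite
          (𝓝 ((∫ σ, ∏ x ∈ X, sp (σ x) ∂Q) * ∫ σ, ∏ y ∈ Y, sp (σ y) ∂Q))) ∧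
      (∀ᵐ σ ∂Q, ∃ H, IsHeight σ H) ∧
      ∃ s : ℝ, 0 < s ∧
      ∀ H : Conf → Site → ℝ, (∀ᵐ σ ∂Q, IsHeight σ (H σ) ∧ H σ (Sum.inl 0) = 0) →
      ∀ (m : ℕ) (φ : Fin m → ℝ × ℝ → ℝ), (∀ j, Test (φ j)) →
        (Matrix.of (fun i j => s ^ 2 * (2 * Real.pi * gffCov (φ i) (φ j)))).PosSemidef ∧
        TendstoInDistribution (fun (δ : ℝ) (σ : Conf) =>
          (WithLp.toLp 2 (fun j => fld (H σ) δ (φ j)) : EuclideanSpace ℝ (Fin m))) (𝓝[>] 0)
          (id : EuclideanSpace ℝ (Fin m) → EuclideanSpace ℝ (Fin m)) (fun _ => Q)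
          (multivariateGaussian 0
            (Matrix.of (fun i j => s ^ 2 * (2 * Real.pi * gffCov (φ i) (φ j))))) := by
  obtain ⟨Q, s, hs, ⟨h0, h1, h2, h3, h4, h6, h7⟩, h5⟩ := main_Ulo hU
  exact ⟨Q, h0, h1, h2, h3, h4, h5, h6, s, hs, h7⟩
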