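import Vale.Agent.P147.Bdl.B1

open MeasureTheory Vale.Agent.P147

namespace Vale.Agent.Results.P147.OneSided

theorem result (d : ℕ) (μ : Measure (Row d)) [IsProbabilityMeasure μ] (hμ : Elliptic μ) :
    (4 ≤ d → ∀ v : Fin d → ℝ, annealed μ 0 (ThinEscape v) ≠ 0 →
      annealed μ 0 (Escape v) = 1 ∧
        ∀ l : Fin d → ℝ, annealed μ 0 (Escape l) = 0 ∨ annealed μ 0 (Escape l) = 1) ∧
    (4 ≤ d → ∀ w : Fin d → ℝ, w ≠ 0 → annealed μ 0 (Speed w) ≠ 0 →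
      annealed μ 0 (Speed w) = 1 ∧
        ∀ l : Fin d → ℝ, annealed μ 0 (Escape l) = 0 ∨ annealed μ 0 (Escape l) = 1) ∧
    (3 ≤ d → ∀ v : Fin d → ℝ,
      annealed μ 0 (ThinEscape v) = 0 ∨ annealed μ 0 (ThinEscape (-v)) = 0) ∧
    (3 ≤ d → ∀ w₁ w₂ : Fin d → ℝ, w₁ ≠ 0 → w₂ ≠ 0 → w₁ ≠ w₂ →
      annealed μ 0 (Speed w₁) = 0 ∨ annealed μ 0 (Speed w₂) = 0) := by
  refine ⟨fun hd v hv => zero_one_of_thin μ hd hμ hv, fun hd w hw hp =>
    ⟨speed_eq_one μ hd hμ hw hp, ?_⟩, fun hd v => thin_tube μ hd hμ v,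
    fun hd _ _ h1 h2 hne => one_velocity μ hd hμ h1 h2 hne⟩
  have hpos : 0 < ∑ i, w i * w i := by
    obtain ⟨i, hi⟩ : ∃ i, w i ≠ 0 := by
      by_contra hcon
      push Not at hcon
      exact hw (funext hcon)
    exact Finset.sum_pos' (fun j _ => mul_self_nonneg _)
      ⟨i, Finset.mem_univ i, mul_self_pos.2 hi⟩
  have h1 : annealed μ 0 (ThinEscape w) ≠ 0 := fun h0 => hp
    (le_antisymm ((annealed_mono μ 0 (speed_subset hpos)).trans h0.le) zero_le)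
  exact (zero_one_of_thin μ hd hμ h1).2

end Vale.Agent.Results.P147.OneSided
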