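import Vale.Agent.P147.D3.Main2

open MeasureTheory Vale.Agent.P147

namespace Vale.Agent.Results.P147.OneSidedThree

/-- Almost surely every step has probability larger than `κ`. For `κ = 0` this is ellipticity. -/
def EllipticAbove {d : ℕ} (κ : ℝ) (μ : Measure (Row d)) : Prop :=
  ∀ᵐ p ∂μ, ∀ u : Dir d, κ < p.1 u

theorem result (d : ℕ) (hd : 3 ≤ d) (μ : Measure (Row d)) [IsProbabilityMeasure μ]
    (hμ : EllipticAbove 0 μ) :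
    (4 ≤ d ∨ (∃ κ : ℝ, 0 < κ ∧ EllipticAbove κ μ) →
      (∀ v : Fin d → ℝ, annealed μ 0 (ThinEscape v) ≠ 0 → annealed μ 0 (Escape v) = 1) ∧
      (∀ w : Fin d → ℝ, w ≠ 0 → annealed μ 0 (Speed w) ≠ 0 → annealed μ 0 (Speed w) = 1) ∧
      ((∃ v : Fin d → ℝ, annealed μ 0 (ThinEscape v) ≠ 0) ∨
        (∃ w : Fin d → ℝ, w ≠ 0 ∧ annealed μ 0 (Speed w) ≠ 0) →
        ∀ l : Fin d → ℝ, annealed μ 0 (Escape l) = 0 ∨ annealed μ 0 (Escape l) = 1)) ∧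
    (∀ v : Fin d → ℝ, annealed μ 0 (ThinEscape v) = 0 ∨ annealed μ 0 (ThinEscape (-v)) = 0) ∧
    (∀ w₁ w₂ : Fin d → ℝ, w₁ ≠ 0 → w₂ ≠ 0 → w₁ ≠ w₂ →
      annealed μ 0 (Speed w₁) = 0 ∨ annealed μ 0 (Speed w₂) = 0) := by
  refine (fun h => ⟨fun hk => h.1 (hk.imp_right ?_), h.2⟩) (D3.main2 hd μ hμ)
  rintro ⟨κ, hκ, hk⟩
  exact ⟨κ, hκ, hk.mono fun p hp u => (hp u).le⟩

end Vale.Agent.Results.P147.OneSidedThree
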