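import Vale.Agent.P151.Bdl.B1

namespace Vale.Agent.Results.P151.KozmaNitzan

open Vale.Agent.P151.KN

open Classical in
/-- Percolation on a finite (hyper)graph with vertex set `V` and edges `E` (`inc e` is the set of
end points of `e`), the edges `e` being open independently with probabilities `p e`. Let `o` be a
vertex and `A` a set of vertices. The law of the cluster of `o` restricted to the event that it
meets `A` dominates a combination `∑ w a (law of the cluster of a)` with `w ≥ 0` of the same total
mass. In particular `P(o ↔ b, o ↔ A) ≥ P(o ↔ A) * min_{a ∈ A} P(a ↔ b)`. -/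
theorem result {V E : Type} [Finite V] [Fintype E] [DecidableEq E] (inc : E → Set V)
    (p : E → ℝ) (h0 : ∀ e, 0 ≤ p e) (h1 : ∀ e, p e ≤ 1) (A : Finset V) (o : V) :
    (∃ w : V → ℝ, (∀ a, 0 ≤ w a) ∧
      ∑ a ∈ A, w a = Ex p (fun ω => if Meets inc A o ω then 1 else 0) ∧
      ∀ F : Set V → ℝ, Monotone F →
        ∑ a ∈ A, w a * Ex p (fun ω => F (cluster inc ω a)) ≤
          Ex p (fun ω => if Meets inc A o ω then F (cluster inc ω o) else 0)) ∧
    ∀ (b : V) (m : ℝ),
      (∀ a ∈ A, m ≤ Ex p (fun ω => if b ∈ cluster inc ω a then 1 else 0)) →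
        m * Ex p (fun ω => if Meets inc A o ω then 1 else 0) ≤
          Ex p (fun ω => if Meets inc A o ω ∧ b ∈ cluster inc ω o then 1 else 0) :=
  hand inc p h0 h1 A o

end Vale.Agent.Results.P151.KozmaNitzan
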