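import Mathlib
import Vale.Agent.P154.Defs
import Vale.Agent.P154.Bdl.B6

namespace Vale.Agent.Results.P154.PottsFerro

open Vale.Agent.P154

theorem result :
    ∀ q : ℕ, q = 3 ∨ q = 4 →
      (∀ d : ℕ, 2 ≤ d → ∀ lam : ℝ, 0 ≤ lam → lam ≤ 1 →
        (Reconstruction (regularOffspring d) q lam ↔ 1 < (d : ℝ) * lam ^ 2) ∧
        (Nonreconstruction (regularOffspring d) q lam ↔ (d : ℝ) * lam ^ 2 ≤ 1)) ∧
      (∀ d : ℝ, 0 < d → ∀ lam : ℝ, 0 ≤ lam → lam ≤ 1 →
        (Reconstruction (poissonOffspring d) q lam ↔ 1 < d * lam ^ 2) ∧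
        (Nonreconstruction (poissonOffspring d) q lam ↔ d * lam ^ 2 ≤ 1)) := by
  intro q hq
  have hq2 : 2 ≤ q := by omega
  have hreg : ∀ d : ℕ, 2 ≤ d → ∀ lam : ℝ, 0 ≤ lam → lam ≤ 1 →
      (Reconstruction (regularOffspring d) q lam ↔ 1 < (d : ℝ) * lam ^ 2) := by
    intro d hd lam h0 h1
    rcases hq with rfl | rfl
    · exact ferro_regular Q3.isCert3 hq2 hd h0 h1
    · exact ferro_regular Q4.isCert4 hq2 hd h0 h1
  have hpoi : ∀ d : ℝ, 0 < d → ∀ lam : ℝ, 0 ≤ lam → lam ≤ 1 →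
      (Reconstruction (poissonOffspring d) q lam ↔ 1 < d * lam ^ 2) := by
    intro d hd lam h0 h1
    rcases hq with rfl | rfl
    · exact ferro_poisson Q3.isCert3 hq2 hd h0 h1
    · exact ferro_poisson Q4.isCert4 hq2 hd h0 h1
  refine ⟨fun d hd lam h0 h1 => ?_, fun d hd lam h0 h1 => ?_⟩
  · have hl : -1 / ((q : ℝ) - 1) ≤ lam := (neg_inv_le_zero hq2).trans h0
    have h := hreg d hd lam h0 h1
    have h2 := reconstruction_iff (q := q) (by omega) hl h1 (regular_nonneg d) (regular_hasSum d)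
    refine ⟨h, ?_⟩
    rw [← not_lt, ← h, h2, not_not]
  · have hl : -1 / ((q : ℝ) - 1) ≤ lam := (neg_inv_le_zero hq2).trans h0
    have h := hpoi d hd lam h0 h1
    have h2 := reconstruction_iff (q := q) (by omega) hl h1 (poisson_nonneg hd.le)
      (poisson_hasSum d)
    refine ⟨h, ?_⟩
    rw [← not_lt, ← h, h2, not_not]

end Vale.Agent.Results.P154.PottsFerro
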