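import Vale.Agent.P160.Bdl.B3

namespace Vale.Agent.Results.P160.InvSqrtTwo

open Filter

/-- The set of all symmetric `n × n` integer matrices with every entry equal to `1` or `-1`. -/
def SymmetricSignMatrices (n : ℕ) : Set (Matrix (Fin n) (Fin n) ℤ) :=
  {A | A.IsSymm ∧ ∀ i j, A i j = 1 ∨ A i j = -1}

/-- The probability that a uniformly random symmetric sign matrix of size `n` is singular. -/
noncomputable def q (n : ℕ) : ℝ :=
  (Set.ncard {A : Matrix (Fin n) (Fin n) ℤ | A ∈ SymmetricSignMatrices n ∧ A.det = 0} : ℝ) /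
    (Set.ncard (SymmetricSignMatrices n) : ℝ)

open Vale.Agent.P160

lemma signM_injective (n : ℕ) : Function.Injective (signM (n := n)) := by
  intro b b' h
  funext e
  induction e using Sym2.ind with
  | _ i j =>
    have h1 := congrFun (congrFun h i) j
    unfold signM at h1
    by_cases hb : b s(i, j) = true <;> by_cases hb' : b' s(i, j) = true <;> simp_all

lemma range_signM (n : ℕ) : Set.range (signM (n := n)) = SymmetricSignMatrices n := by
  ext A
  constructor
  · rintro ⟨b, rfl⟩
    refine ⟨?_, fun i j => ?_⟩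
    · ext i j
      rw [Matrix.transpose_apply]
      unfold signM
      rw [Sym2.eq_swap]
    · unfold signM
      split_ifs
      · exact Or.inr rfl
      · exact Or.inl rfl
  · rintro ⟨hs, hA⟩
    refine ⟨Sym2.lift ⟨fun i j => decide (A i j = -1), fun i j => ?_⟩, ?_⟩
    · have := hs.apply i j
      show decide (A i j = -1) = decide (A j i = -1)
      rw [this]
    · ext i j
      unfold signM
      rw [Sym2.lift_mk]
      rcases hA i j with h | h
      · simp [h]
      · simp [h]

lemma q_eq (n : ℕ) : q n = Pb (fun b : Sym2 (Fin n) → Bool => (signM b).det = 0) := by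
  classical
  have h1 : {A : Matrix (Fin n) (Fin n) ℤ | A ∈ SymmetricSignMatrices n ∧ A.det = 0} =
      signM '' {b : Sym2 (Fin n) → Bool | (signM b).det = 0} := by
    ext A
    constructor
    · rintro ⟨hA, hdet⟩
      rw [← range_signM] at hA
      obtain ⟨b, rfl⟩ := hA
      exact ⟨b, hdet, rfl⟩
    · rintro ⟨b, hb, rfl⟩
      exact ⟨by rw [← range_signM]; exact ⟨b, rfl⟩, hb⟩
  have h2 : Set.ncard {b : Sym2 (Fin n) → Bool | (signM b).det = 0} =
      (Finset.univ.filter (fun b : Sym2 (Fin n) → Bool => (signM b).det = 0)).card := by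
    rw [← Set.ncard_coe_finset]
    congr 1
    ext b
    simp
  have h3 : Set.ncard (SymmetricSignMatrices n) = 2 ^ Fintype.card (Sym2 (Fin n)) := by
    rw [← range_signM, ← Set.image_univ, Set.ncard_image_of_injective _ (signM_injective n),
      Set.ncard_univ, Nat.card_eq_fintype_card, Fintype.card_fun, Fintype.card_bool]
  unfold q Pb
  rw [h1, Set.ncard_image_of_injective _ (signM_injective n), h2, h3]
  push_cast
  congr!

lemma q_nonneg (n : ℕ) : 0 ≤ q n := by
  unfold q
  positivity

/-- Upper bound for the exponential rate of the singularity probability of symmetric sign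
matrices: `limsup q_n^{1/n} ≤ 1/√2`. -/
theorem result :
    (∀ lam : ℝ, 1 / Real.sqrt 2 < lam → ∀ᶠ n : ℕ in atTop, q n ≤ lam ^ n) ∧
    limsup (fun n : ℕ => q n ^ (1 / (n : ℝ))) atTop ≤ 1 / Real.sqrt 2 := by
  have key : ∀ lam : ℝ, 1 / Real.sqrt 2 < lam → ∀ᶠ n : ℕ in atTop, q n ≤ lam ^ n := by
    intro lam h
    filter_upwards [eventually_le6 h] with n hn
    rw [q_eq]
    exact hn
  refine ⟨key, ?_⟩
  refine le_of_forall_gt_imp_ge_of_dense fun lam hlam => ?_
  have hl : 0 < lam := lt_trans (by positivity) hlam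
  refine limsup_le_of_le ?_ ?_
  · exact isCoboundedUnder_le_of_le atTop (x := 0) fun n => Real.rpow_nonneg (q_nonneg n) _
  · filter_upwards [key lam hlam, eventually_ge_atTop 1] with n hn hn1
    have hn0 : (n : ℝ) ≠ 0 := by
      have : 0 < n := hn1
      positivity
    calc q n ^ (1 / (n : ℝ)) ≤ (lam ^ n) ^ (1 / (n : ℝ)) :=
          Real.rpow_le_rpow (q_nonneg n) hn (by positivity)
      _ = lam := by
          rw [← Real.rpow_natCast, ← Real.rpow_mul hl.le, mul_one_div_cancel hn0,
            Real.rpow_one]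

end Vale.Agent.Results.P160.InvSqrtTwo
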