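import Vale.Agent.P161.Bdl.B3
import Vale.Agent.P161.Bdl.B1
open MeasureTheory Vale.Agent.P161

namespace Vale.Agent.Results.P161.OffCritical

/-- For every `d ≥ 3`, every `d`-regular tree `G` and every `β ≥ 0` with
`tanh β ≠ (d-1)^(-1/2)`, the free zero-field Ising measure exists, and it is a factor of IID
if and only if `tanh β < (d-1)^(-1/2)`. -/
theorem result {V : Type*} (G : SimpleGraph V) [G.LocallyFinite] (hG : G.IsTree) (d : ℕ)
    (hd : 3 ≤ d) (hreg : G.IsRegularOfDegree d) (β : ℝ) (hβ : 0 ≤ β)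
    (hne : Real.tanh β ≠ 1 / Real.sqrt ((d : ℝ) - 1)) :
    (∃ μ : Measure (V → ℤˣ), IsFreeIsing G (Real.tanh β) μ) ∧
      ∀ μ : Measure (V → ℤˣ), IsFreeIsing G (Real.tanh β) μ →
        (IsFactorOfIID G μ ↔ Real.tanh β < 1 / Real.sqrt ((d : ℝ) - 1)) := by
  have hd1 : (0 : ℝ) < (d : ℝ) - 1 := by
    have : (3 : ℝ) ≤ d := by exact_mod_cast hd
    linarith
  have h0 : 0 ≤ Real.tanh β := by
    rw [Real.tanh_eq_sinh_div_cosh]
    exact div_nonneg (Real.sinh_nonneg_iff.2 hβ) (Real.cosh_pos β).le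
  have h1 : Real.tanh β < 1 := Real.tanh_lt_one β
  have hs : 0 < Real.sqrt ((d : ℝ) - 1) := Real.sqrt_pos.2 hd1
  have hsq : Real.sqrt ((d : ℝ) - 1) ^ 2 = (d : ℝ) - 1 := Real.sq_sqrt hd1.le
  refine ⟨exists_isFreeIsing hG h0 h1.le, fun μ hμ => ?_⟩
  rcases lt_or_gt_of_ne hne with hlt | hgt
  · have hsub : ((d : ℝ) - 1) * Real.tanh β ^ 2 < 1 := by
      have h2 : Real.tanh β * Real.sqrt ((d : ℝ) - 1) < 1 := by
        rwa [lt_div_iff₀ hs] at hlt
      have h3 : 0 ≤ Real.tanh β * Real.sqrt ((d : ℝ) - 1) := mul_nonneg h0 hs.le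
      have h4 : (Real.tanh β * Real.sqrt ((d : ℝ) - 1)) ^ 2 < 1 := by nlinarith
      rw [mul_pow, hsq] at h4
      linarith
    exact ⟨fun _ => hlt, fun _ => factor_of_iid_of_subcritical hG (by omega) hreg h0 hsub h1 hμ⟩
  · have hsup : 1 < ((d : ℝ) - 1) * Real.tanh β ^ 2 := by
      have h2 : 1 < Real.tanh β * Real.sqrt ((d : ℝ) - 1) := (div_lt_iff₀ hs).1 hgt
      have h4 : 1 < (Real.tanh β * Real.sqrt ((d : ℝ) - 1)) ^ 2 := by nlinarith
      rw [mul_pow, hsq] at h4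
      linarith
    exact ⟨fun h => absurd h (not_factor_of_supercritical hG (by omega) hreg h0 h1 hsup hμ),
      fun h => absurd h (not_lt.2 hgt.le)⟩

end Vale.Agent.Results.P161.OffCritical
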