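import Vale.Agent.P162.Bdl.B1

namespace Vale.Agent.Results.P162.Linear

open Vale.Agent.P162

/-- The mixing time of the Thorp shuffle of `n = 2 ^ (d + 1)` cards is of order `log n`. -/
theorem result : ∃ c C : ℝ, 0 < c ∧ ∀ d : ℕ,
    c * Real.log ((2 * 2 ^ d : ℕ) : ℝ) ≤ (tmix (2 ^ d) : ℝ) ∧
    (tmix (2 ^ d) : ℝ) ≤ C * Real.log ((2 * 2 ^ d : ℕ) : ℝ) ∧
    ∀ t : ℕ, tmix (2 ^ d) ≤ t → tvUnif (convPow (thorpLaw (2 ^ d)) t) ≤ 1 / 4 := by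
  obtain ⟨c, C, hc, h⟩ := Ring.all_even_log
  exact ⟨c, C, hc, fun d => h (2 ^ d) Nat.one_le_two_pow⟩

end Vale.Agent.Results.P162.Linear
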