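import Vale.Agent.P165.Bdl.B3

namespace Vale.Agent.Results.P165.PowersAndCriterion

open Vale.Agent.P165

universe u

/-- Let `G` be an infinite, connected, locally finite, quasi-transitive graph.
(1) If `G` is nonamenable then for all sufficiently large `k` the power graph `G^k` belongs to the
same class and satisfies the conclusion of the Benjamini-Schramm conjecture.
(2) If `G` is `d`-regular and its degree is large compared with the spectral gap, or compared with
the isoperimetric constant, then `p_c(G) < p_u(G)` for `G` itself. -/
theorem result {V : Type u} [Infinite V] (G : SimpleGraph V) [G.LocallyFinite]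
    (hG : G.Connected) (hqt : IsQuasiTransitive G) :
    (0 < vertexCheeger G → ∃ k₀ : ℕ, ∀ k, k₀ ≤ k →
      (powerGraph G k).Connected ∧ (∀ x, ((powerGraph G k).neighborSet x).Finite) ∧
      IsQuasiTransitive (powerGraph G k) ∧ 0 < vertexCheeger (powerGraph G k) ∧
      pc (powerGraph G k) < pu (powerGraph G k)) ∧
    (∀ d : ℕ, (∀ x, G.degree x = d) →
      ((∃ o : V, 8 ≤ (d : ℝ) * (1 - spectralRadius G d o) ^ 3) ∨
        64 * (d : ℝ) ^ 5 ≤ (edgeCheeger G) ^ 6) → pc G < pu G) := by
  refine ⟨fun hna => power_final G hG hqt hna, fun d hd h => ?_⟩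
  classical
  rcases h with ⟨o, h⟩ | h
  · exact criterion_spectral G hG hqt hd o h
  · exact criterion_cheeger G hG hqt hd h

end Vale.Agent.Results.P165.PowersAndCriterion
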