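import Vale.Agent.P168.Bdl.B1
open MeasureTheory ProbabilityTheory Filter
open scoped NNReal Topology

namespace Vale.Agent.Results.P168.MezardParisi

open Vale.Agent.P168

/-- **The Mézard–Parisi formula.** For every model of the class the limit of the pressure exists and
equals `inf_r Φ_r`. The lower bound holds for every random interaction `θ` on `K ≥ 1` spins with
`E |θ| < ∞`, without parity, positivity or independence of the `f_j`. -/
theorem result (K : ℕ) (lam : ℝ≥0) (ρ : Measure (Clause K)) (ν : Measure ℝ) :
    (InClass K ρ ν →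
      ∃ L : ℝ, Tendsto (fun N => pressure lam ρ ν N) atTop (𝓝 L) ∧ mezardParisi lam ρ ν = L) ∧
    (1 ≤ K → IsProbabilityMeasure ρ → IsProbabilityMeasure ν →
      (∀ σ, Integrable (fun c => theta c σ) ρ) → Integrable (fun h => h) ν →
      mezardParisi lam ρ ν ≤ liminf (fun N => ((pressure lam ρ ν N : ℝ) : EReal)) atTop) := by
  refine ⟨fun h => ?_, fun hK hρ hν hθ hh => ?_⟩
  · haveI := h.prob_clause
    haveI := h.prob_field
    haveI : NeZero K := ⟨by have := h.two_le; omega⟩
    exact MP.limit_of_bounds
      (MP.lower_full ρ (integrable_maxTheta_of ρ h.theta_int) ν h.field_int lam)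
      fun N hN r m x hx => PT.pt_upper h hx lam hN
  · haveI : NeZero K := ⟨by omega⟩
    exact MP.lower_full ρ (integrable_maxTheta_of ρ hθ) ν hh lam

end Vale.Agent.Results.P168.MezardParisi
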