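import Vale.Agent.P177.Bd3.B6

namespace Vale.Agent.Results.P177.GoodPairs

open Vale.Agent.P177.Serre

universe u

/-- Serre's positivity conjecture for all `M`, `N` over any regular local ring all pairs of
components of which are good, and for `M`, `N` over an essentially smooth local ring with a
condition on the fibres over the primes of height at least five. -/
theorem result : GoodCase.{u} ∧ EssSmoothCase.{u} :=
  ⟨Vale.Agent.P177.goodCase, Vale.Agent.P177.essSmoothCase⟩

end Vale.Agent.Results.P177.GoodPairs
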