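import Vale.Agent.P177.Bdl.B6

namespace Vale.Agent.Results.P177.SerrePositivity

open Vale.Agent.P177.Serre

universe u

/-- Serre's positivity conjecture in the cases (I), (II), (III), (IV) and (V). -/
theorem result : TameCase.{u} ∧ TransversalCase.{u} ∧ EssSmoothCase.{u} ∧ TorsionCase.{u} ∧
    PPowerTorsionCase.{u} :=
  ⟨Vale.Agent.P177.tameCase, Vale.Agent.P177.transversalCase, Vale.Agent.P177.essSmoothCase,
    Vale.Agent.P177.torsionCase, Vale.Agent.P177.pPowerTorsionCase⟩

end Vale.Agent.Results.P177.SerrePositivity
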