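import Vale.Agent.P186.Bdl.B1

namespace Vale.Agent.Results.P186.NormalSubgroup

open Vale.Agent.P186

/-- Residual finiteness of a hyperbolic group is decided by any infinite finitely generated
normal subgroup `N`, with no hypothesis on the quotient; and the same for all subgroups `K`. -/
theorem result (G : Type*) [Group G] (hG : IsHyperbolicGroup G) :
    (∀ N : Subgroup G, N.Normal → N.FG → Infinite N →
      (Group.ResiduallyFinite G ↔ Group.ResiduallyFinite N ∧ IsVirtuallyTorsionFree G)) ∧
    (∀ (K : Subgroup G) (N : Subgroup K), N.Normal → N.FG → Infinite N →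
      ((finiteResidual K : Set K).Finite ↔ (finiteResidual N : Set N).Finite) ∧
      (IsVirtuallyTorsionFree K → (Group.ResiduallyFinite K ↔ Group.ResiduallyFinite N))) :=
  ⟨fun N h1 h2 h3 => haveI := h1; main hG N h2 h3,
    fun K N h1 h2 h3 => haveI := h1; main_subgroup hG K N h2 h3⟩

end Vale.Agent.Results.P186.NormalSubgroup
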