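import Vale.Agent.P188.Bdl.B3

/-!
Restrictions on the finite subgroups and on the direct products inside a group
quasi-isometric to a virtually polycyclic group.
-/

universe u v

namespace Vale.Agent.Results.P188.BoundedTorsion

open Vale.Agent.P188

/-- Let `H` be quasi-isometric to a virtually polycyclic group `G`. Then the orders of the finite
subgroups of `H` divide a common positive integer, and there is a bound on the number of factors
of a direct product of nontrivial subgroups contained in `H`. -/
theorem result (H : Type u) (G : Type v) [Group H] [Group G] (hG : IsVirtuallyPolycyclic G)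
    (h : QuasiIsometric H G) :
    (∃ m : ℕ, 0 < m ∧ ∀ F : Subgroup H, Finite F → Nat.card F ∣ m) ∧
    (∃ N : ℕ, ∀ (k : ℕ) (A : Fin k → Subgroup H), (∀ i, A i ≠ ⊥) →
      (∀ i j, i ≠ j → ∀ x ∈ A i, ∀ y ∈ A j, Commute x y) → iSupIndep A → k ≤ N) := by
  obtain ⟨n, Z, _, hZ, hGZ⟩ := hG.exists_coarseEquiv
  have hHZ : CoarseEquiv H Z := h.coarseEquiv.trans hGZ
  exact ⟨card_dvd_of_coarseEquiv hHZ hZ, product_bound hHZ hZ⟩

end Vale.Agent.Results.P188.BoundedTorsion
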