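import Vale.Agent.P189.Bdl.B1

set_option autoImplicit false

open MeasureTheory
open scoped ENNReal

namespace Vale.Agent.Results.P189.BoundedGeneration

open Vale.Agent.P189

theorem result :
    (∀ (Γ X I : Type) [Group Γ] [Countable Γ] [MeasurableSpace X] [StandardBorelSpace X]
      (μ : Measure X) [IsProbabilityMeasure μ] [MulAction Γ X] [MeasurableConstSMul Γ X]
      [SMulInvariantMeasure Γ X μ] [Fintype I] [Nonempty I] (A : I → Subgroup Γ)
      (T : Finset Γ) (m : ℕ), (∀ i, Infinite (A i)) →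
      (∀ g : Γ, ∃ w : List Γ, w.length ≤ m ∧ (∀ x ∈ w, (∃ i, x ∈ A i) ∨ x ∈ T) ∧
        w.prod = g) →
      EssentiallyFree Γ X μ →
      actionCost Γ X μ + Fintype.card I ≤ ∑ i, actionCost (A i) X μ + 1) ∧
    (∀ (Γ : Type) [Group Γ] [Countable Γ] [Infinite Γ] (n : ℕ) (A : Fin n → Subgroup Γ),
      (∀ i, Finite (A i) ∨ HasFixedPrice (A i) 1) →
      (∀ g : Γ, ∃ a : Fin n → Γ, (∀ i, a i ∈ A i) ∧ (List.ofFn a).prod = g) →
      HasFixedPrice Γ 1) ∧
    (∀ (Γ : Type) [Group Γ] [Infinite Γ] (n : ℕ) (a : Fin n → Γ),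
      (∀ g : Γ, ∃ k : Fin n → ℤ, (List.ofFn fun i => a i ^ k i).prod = g) →
      HasFixedPrice Γ 1) :=
  ⟨fun _ _ _ _ _ _ _ μ _ _ _ _ _ _ A T m hA hm hfree =>
      cost_inequality μ A T hA m hm hfree,
    fun _ _ _ _ n A hA hprod => fixedPrice_one_of_product n A hA hprod,
    fun _ _ _ n a hprod => fixedPrice_one_of_boundedly_generated n a hprod⟩

end Vale.Agent.Results.P189.BoundedGeneration
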