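import Vale.Agent.P193.MathlibUsed
import Vale.Agent.P193.Bdl.B2

namespace Vale.Agent.Results.P193.SigmaTwoBarrier

open Vale.Agent.P193

/-- (1) For every `Sigma^0_2` set `S` of (codes of) finite presentations of simple groups there is
a 2-generated, residually finite group `G` of derived length at most 3 with decidable word
problem which embeds in no group presented by a member of `S`.
(2) The set of all finite presentations of simple groups is `Pi^0_2`.
(3) The Boone-Higman conjecture implies that this set is not `Sigma^0_2`.
(4) The Boone-Higman conjecture implies that for every `Sigma^0_2` set `S` of presentations of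
simple groups some finitely presented simple group embeds in no group presented by a member
of `S`. -/
theorem result :
    (∀ S : Set Presentation, IsSigma2 S → (∀ P ∈ S, IsSimpleGroup (PGroup P)) →
      ∃ (G : Type) (_ : Group G), (∃ g : Fin 2 → G, Subgroup.closure (Set.range g) = ⊤) ∧
        Group.ResiduallyFinite G ∧ derivedSeries G 3 = ⊥ ∧ DecidableWordProblem G ∧
        ∀ P ∈ S, ¬ Embeds G (PGroup P)) ∧
    IsPi2 {P | IsSimpleGroup (PGroup P)} ∧
    (BooneHigman → ¬ IsSigma2 {P | IsSimpleGroup (PGroup P)}) ∧
    (BooneHigman → ∀ S : Set Presentation, IsSigma2 S → (∀ P ∈ S, IsSimpleGroup (PGroup P)) →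
      ∃ P, IsSimpleGroup (PGroup P) ∧ ∀ Q ∈ S, ¬ Embeds (PGroup P) (PGroup Q)) :=
  main

end Vale.Agent.Results.P193.SigmaTwoBarrier
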