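import Vale.Agent.P194.Bdl.B1

namespace Vale.Agent.Results.P194.Main

open Vale.Agent.P194 Vale.Agent.P194.LeftOrd

universe u v w

def DirectlyFinite (K : Type v) [DivisionRing K] (G : Type u) [Group G] : Prop :=
  ∀ a b : MonoidAlgebra K G, a * b = 1 → b * a = 1

def StablyFinite (K : Type v) [DivisionRing K] (G : Type u) [Group G] : Prop :=
  ∀ (n : ℕ) (A B : Matrix (Fin n) (Fin n) (MonoidAlgebra K G)), A * B = 1 → B * A = 1

def NoPrimeTorsionOtherThan (p : ℕ) (Z : Type u) [Group Z] : Prop :=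
  ∀ (z : Z) (q : ℕ), q.Prime → q ≠ p → z ^ q = 1 → z = 1

def LocallyEmbeddable (P : ∀ (Q : Type w) [Group Q], Prop) (G : Type u) [Group G] : Prop :=
  ∀ F : Finset G, ∃ (Q : Type w) (_ : Group Q) (f : G → Q), Set.InjOn f F ∧
    (∀ x ∈ F, ∀ y ∈ F, f (x * y) = f x * f y) ∧ P Q

theorem sf_iff (K : Type v) [DivisionRing K] (G : Type u) [Group G] :
    StablyFinite K G ↔ IsStablyFiniteRing (MonoidAlgebra K G) :=
  ⟨fun h => ⟨fun n => ⟨fun {A B} hAB => h n A B hAB⟩⟩,
    fun h n A B hAB => (h.isDedekindFiniteMonoid n).mul_eq_one_symm hAB⟩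

theorem df_iff (K : Type v) [DivisionRing K] (G : Type u) [Group G] :
    DirectlyFinite K G ↔ IsDedekindFiniteMonoid (MonoidAlgebra K G) :=
  ⟨fun h => ⟨fun {a b} hab => h a b hab⟩, fun h a b hab => h.mul_eq_one_symm hab⟩

theorem result :
    (∀ (p : ℕ) [Fact p.Prime] (K : Type v) [DivisionRing K] [CharP K p],
      (∀ (G : Type u) [Group G], IsSofic G → StablyFinite K G) ∧
      (∀ (G : Type u) [Group G] (N : Subgroup G) [N.Normal], LocallyPIndicable p N →
        (DirectlyFinite K (G ⧸ N) → DirectlyFinite K G) ∧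
        (StablyFinite K (G ⧸ N) → StablyFinite K G)) ∧
      (∀ (G : Type u) [Group G] (N : Subgroup G) [N.Normal] [Group.FG N]
        [Group.ResiduallyFinite N], NoPrimeTorsionOtherThan p (Subgroup.center N) →
        StablyFinite K (G ⧸ N) → StablyFinite K G) ∧
      (∀ (G : Type u) [Group G] (H : Subgroup G) [H.FiniteIndex],
        StablyFinite K H → StablyFinite K G) ∧
      (∀ (G : Type u) [Group G],
        LocallyEmbeddable (fun (Q : Type w) _ => StablyFinite K Q) G → StablyFinite K G)) ∧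
    (∀ (m n : ℕ), ∃ P : ℕ, ∀ p : ℕ, p.Prime → P < p →
      ∀ (K : Type v) [Field K] [CharP K p] (G : Type u) [Group G] (a b : MonoidAlgebra K G),
        a.coeff.support.card ≤ m → b.coeff.support.card ≤ n → a * b = 1 → b * a = 1) ∧
    (∀ (K : Type v) [DivisionRing K],
      (∀ (G : Type u) [Group G] [LinearOrder G] [MulLeftStrictMono G],
        ∀ A B : Matrix (Fin 2) (Fin 2) (MonoidAlgebra K G), A * B = 1 → B * A = 1) ∧
      (∀ (G : Type u) [Group G] (H : Subgroup G) [LinearOrder H] [MulLeftStrictMono H],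
        H.index = 2 → DirectlyFinite K G) ∧
      (∀ G : Subgroup (ℝ ≃ₜ ℝ), DirectlyFinite K G)) := by
  refine ⟨fun p _ K _ _ => ?_, fun m n => ?_, fun K _ => ?_⟩
  · have hp : (p : K) = 0 := CharP.cast_eq_zero K p
    refine ⟨fun G _ hG n A B hAB => sofic_matrix hG A B hAB,
      fun G _ N _ hN => ⟨fun h => ?_, fun h => ?_⟩, fun G _ N _ _ _ hZ h => ?_,
      fun G _ H _ h => ?_, fun G _ hG => ?_⟩
    · rw [df_iff] at *
      exact ext_directlyFinite p hp N hN
    · rw [sf_iff] at *
      exact ext_stablyFinite p hp N hN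
    · rw [sf_iff] at *
      exact rf_kernel p hp N fun z hz q hq hqp hzq =>
        congrArg Subtype.val (hZ ⟨z, hz⟩ q hq hqp (Subtype.ext hzq))
    · rw [sf_iff] at *
      exact sf_of_finiteIndex H
    · rw [sf_iff] at *
      refine sf_of_local fun F => ?_
      obtain ⟨Q, hQ, f, h1, h2, h3⟩ := hG F
      exact ⟨Q, hQ, f, h1, h2, (sf_iff K Q).1 h3⟩
  · obtain ⟨D, hD, h⟩ := Vale.Agent.P194.LargeChar.large_char.{u, v} m n
    refine ⟨D, fun p hp hDp K _ _ G _ a b ha hb hab => h K G ?_ a b ha hb hab⟩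
    intro h0
    exact absurd (Nat.le_of_dvd hD ((CharP.cast_eq_zero_iff K p D).1 h0)) (not_le.2 hDp)
  · refine ⟨fun G _ _ _ A B hAB => isDedekindFinite_two.mul_eq_one_symm hAB,
      fun G _ H _ _ hH => ?_, fun G => ?_⟩
    · rw [df_iff]
      exact dedekind_of_index_two K H hH ⟨inferInstance, inferInstance⟩
    · rw [df_iff]
      let φ : G →* Equiv.Perm ℝ :=
        { toFun := fun g => (g : ℝ ≃ₜ ℝ).toEquiv
          map_one' := rfl
          map_mul' := fun _ _ => rfl }
      refine dedekind_of_action K φ ?_ ?_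
      · intro a b hab
        apply Subtype.ext
        apply Homeomorph.ext
        intro x
        exact congrArg (fun e : Equiv.Perm ℝ => e x) hab
      · intro g
        exact (g : ℝ ≃ₜ ℝ).continuous.strictMono_of_inj (g : ℝ ≃ₜ ℝ).injective

end Vale.Agent.Results.P194.Main
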