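import Vale.Agent.P195.Defs
import Vale.Agent.P195.Bdl.B3

open CategoryTheory CategoryTheory.Abelian

namespace Vale.Agent.Results.P195.IgusaTodorov

universe u w

/-- The Auslander–Reiten conjecture holds for every Igusa–Todorov Artin algebra `R`, in the
following uniform form: there is a bound `L` depending only on `R` such that a finitely generated
module `M` with `Ext^j(M, M) = 0 = Ext^j(M, R)` for `1 ≤ j ≤ L` is projective. -/
theorem result (k : Type w) [CommRing k] [IsArtinianRing k]
    (R : Type u) [Ring R] [Algebra k R] [Module.Finite k R]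
    (n : ℕ) (h : Vale.Agent.P195.IsIgusaTodorov R n) :
    ∃ L : ℕ, ∀ (M : Type u) [AddCommGroup M] [Module R M] [Module.Finite R M],
      (∀ j : ℕ, 1 ≤ j → j ≤ L →
        Subsingleton (Ext (ModuleCat.of R M) (ModuleCat.of R M) j) ∧
        Subsingleton (Ext (ModuleCat.of R M) (ModuleCat.of R R) j)) →
      Module.Projective R M :=
  Vale.Agent.P195.unif_IT k R n h

end Vale.Agent.Results.P195.IgusaTodorov
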