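import Vale.Agent.P201.Bdl.B1

/-!
Kaplansky's zero divisor conjecture for extensions, with unique product quotient, of groups acting
on trees with general vertex stabilizers; the coefficients form an arbitrary division ring.
-/

namespace Vale.Agent.Results.P201.TreeGeneral

open MulAction Vale.Agent.P201

universe u v w

/-- Let `N` be a normal subgroup of a group `G` such that `G / N` has unique products (for example
`N = G`), and let `N` act by automorphisms and without edge inversions on a tree `T`.  Let `E` be
a division ring.  Suppose that every vertex stabilizer `S` has a finite chain of subgroups
`S 0 ≤ S 1 ≤ ... ≤ S k = S`, each normal in the next one with bi-orderable quotient, such that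
either `E[S 0]` is a left Ore domain or `S 0` is Ore indicable (for example locally indicable) and
`E[S 0]` has an injective Hughes free homomorphism to a division ring, or else that `E[S]` has a
Linnell free homomorphism to a division ring and that the stabilizers of the edges at the vertex
are Ore indicable.  Then the group ring `E[G]` has no zero divisors. -/
theorem result {G : Type u} [Group G] (N : Subgroup G) [N.Normal] (hQ : UniqueProds (G ⧸ N))
    {V : Type w} [MulAction N V] (T : SimpleGraph V)
    (hT : T.IsTree) (hadj : ∀ (g : N) (v w : V), T.Adj v w → T.Adj (g • v) (g • w))
    (hinv : ∀ (g : N) (v w : V), T.Adj v w → g • v = w → g • w ≠ v)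
    (E : Type v) [DivisionRing E]
    (hstab : ∀ v : V, Tower E (stabilizer N v) ∨ (HasLinnellFree E (stabilizer N v) ∧
      ∀ w : V, T.Adj v w → OreIndicable E (stabilizer N v ⊓ stabilizer N w : Subgroup N))) :
    NoZeroDivisors (MonoidAlgebra E G) :=
  up_ext N hQ (tree_general T hT hadj hinv E hstab)

end Vale.Agent.Results.P201.TreeGeneral
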