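import Vale.Agent.P202.Bdl.B20
import Vale.Agent.P202.Bdl.B24

/-!
Lech's inequality for flat local homomorphisms `R → S` of Noetherian local rings.

(i) If `R` contains a field, then `e(R) ≤ e(S)`, in every dimension.

(ii) In every characteristic, if `dim R = d ≥ 3`, then `e(R) ≤ (d-2)! e(S)`; for `d = 3` this is
Lech's inequality `e(R) ≤ e(S)`.
-/

open Filter Topology IsLocalRing

universe u

theorem Vale.Agent.Results.P202.LechField.result
    {R S : Type u} [CommRing R] [IsLocalRing R] [IsNoetherianRing R]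
    [CommRing S] [IsLocalRing S] [IsNoetherianRing S]
    [Algebra R S] [IsLocalHom (algebraMap R S)] [Module.Flat R S] :
    ∃ d s eR eS : ℕ, ringKrullDim R = d ∧ ringKrullDim S = s ∧
      Tendsto (fun N : ℕ => (d.factorial : ℝ) *
        ((Module.length R (R ⧸ maximalIdeal R ^ N)).toNat : ℝ) / (N : ℝ) ^ d) atTop
        (𝓝 (eR : ℝ)) ∧
      Tendsto (fun N : ℕ => (s.factorial : ℝ) *
        ((Module.length S (S ⧸ maximalIdeal S ^ N)).toNat : ℝ) / (N : ℝ) ^ s) atTop
        (𝓝 (eS : ℝ)) ∧
      (∀ (k : Type u) [Field k] [Algebra k R], eR ≤ eS) ∧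
      (3 ≤ d → eR ≤ (d - 2).factorial * eS) :=
  Vale.Agent.P202.CharP.hand_field fun p _ => Vale.Agent.P202.CharP.ArbK.theoremC p
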