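import Vale.Agent.P211.Bdl.B1

open scoped Manifold ContDiff
open Bundle Vale.Agent.P211 Vale.Agent.P211.St

/-- Closed Einstein four-manifolds with positive Einstein constant whose pointwise minimum of the
sectional curvature is the same number `k ≥ 0` at all points. -/
theorem Vale.Agent.Results.P211.KMinConst.result
    {E : Type*} [NormedAddCommGroup E] [NormedSpace ℝ E] [FiniteDimensional ℝ E]
    (hdim : Module.finrank ℝ E = 4)
    {M : Type*} [TopologicalSpace M] [ChartedSpace E M] [Mfd E M]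
    [T2Space M] [CompactSpace M] [ConnectedSpace M] [Metric E M]
    [IsContMDiffRiemannianBundle 𝓘(ℝ, E) ∞ E fun p : M => TangentSpace 𝓘(ℝ, E) p]
    (cov : Conn E M) (hcov : IsLeviCivita cov) (lam k : ℝ) (hlam : 0 < lam) (hk : 0 ≤ k)
    (hEin : IsEinstein cov lam) (hmin : MinSec cov k) :
    (∀ U X Y Z W, Smooth U → Smooth X → Smooth Y → Smooth Z → Smooth W →
      ∀ p, dRiem cov U X Y Z W p = 0) ∧
    ((k = lam / 3 ∧ ∀ p X Y, Smooth X → Smooth Y →
        Riem cov X Y Y X p = lam / 3 * dot X Y X Y p) ∨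
      (k = lam / 6 ∧ ∀ p, ∃ F, Ortho F p ∧ ∀ X Y, Smooth X → Smooth Y →
        Riem cov X Y Y X p = lam / 6 * (dot X Y X Y p
          + 3 * (dot X Y (F 0) (F 1) p + dot X Y (F 2) (F 3) p) ^ 2)) ∨
      (k = 0 ∧ ∀ p, ∃ F, Ortho F p ∧ ∀ X Y, Smooth X → Smooth Y →
        Riem cov X Y Y X p = lam * (dot X Y (F 0) (F 1) p ^ 2 + dot X Y (F 2) (F 3) p ^ 2))) :=
  final hdim cov hcov lam k hlam hk hEin hmin
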