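import Vale.Agent.P211.Bdl.S4

open scoped Manifold ContDiff Topology
open Bundle MeasureTheory Filter Vale.Agent.P211.SD

/-- Closed oriented Einstein four-manifolds (`Ric = 3 g`) with nonnegative sectional curvature and
small squared norm of the self-dual block of the curvature operator. -/
theorem Vale.Agent.Results.P211.SelfDualGap.result
    {E : Type} [NormedAddCommGroup E] [NormedSpace ℝ E] [FiniteDimensional ℝ E]
    (hdim : Module.finrank ℝ E = 4)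
    {M : Type} [MetricSpace M] [ChartedSpace E M] [Mfd E M] [CompactSpace M] [ConnectedSpace M]
    [Metric E M] [IsContMDiffRiemannianBundle 𝓘(ℝ, E) ∞ E fun p : M => TangentSpace 𝓘(ℝ, E) p]
    [IsRiemannianManifold 𝓘(ℝ, E) M] [MeasurableSpace M] [BorelSpace M]
    (cov : Conn E M) (hcov : IsLeviCivita cov)
    (hEin : ∀ (p : M) (F : Fin 4 → Fld E M), Ortho F p → ∀ Y Z, Smooth Y → Smooth Z →
      ∑ i, Riem cov (F i) Y Z (F i) p = 3 * ip Y Z p)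
    (hsec : ∀ p X Y, Smooth X → Smooth Y → 0 ≤ Riem cov X Y Y X p)
    (hinj : ∀ p : M, ContMDiffOn 𝓘(ℝ, E) 𝓘(ℝ) ∞ (fun q => dist p q ^ 2) (Metric.ball p (7 / 4)))
    (μ : Measure M) (hfin : IsFiniteMeasure μ)
    (hdiv : ∀ (X : Fld E M) (d : M → ℝ), Smooth X →
      (∀ p F, Ortho F p → d p = ∑ i, ip (nab cov (F i) X) (F i) p) → ∫ p, d p ∂μ = 0)
    (hball : ∀ p : M, Tendsto (fun r : ℝ => μ.real (Metric.ball p r) / r ^ 4) (𝓝[>] 0)
      (𝓝 (Real.pi ^ 2 / 2)))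
    (om : (p : M) → TangentSpace 𝓘(ℝ, E) p [⋀^Fin 4]→ₗ[ℝ] ℝ)
    (hom : ∀ F : Fin 4 → Fld E M, (∀ i, Smooth (F i)) → ContMDiff 𝓘(ℝ, E) 𝓘(ℝ) ∞ (val om F))
    (hom1 : ∀ p F, Ortho F p → val om F p ^ 2 = 1)
    (a b : M → ℝ)
    (ha : ∀ p F, Ortho F p → val om F p = 1 → a p = ∑ i, ∑ j, SD cov F i j p ^ 2)
    (hb : ∀ p F, Ortho F p → val om F p = -1 → b p = ∑ i, ∑ j, SD cov F i j p ^ 2) :
    (∫ p, a p ∂μ ≤ 8 * Real.pi ^ 2 → ∀ p F, Ortho F p → val om F p = 1 →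
      ∀ i j, SD cov F i j p = if i = j then 1 else 0) ∧
    (∫ p, b p ∂μ ≤ 8 * Real.pi ^ 2 → ∀ p F, Ortho F p → val om F p = -1 →
      ∀ i j, SD cov F i j p = if i = j then 1 else 0) ∧
    (∫ p, a p ∂μ ≤ 8 * Real.pi ^ 2 → ∫ p, b p ∂μ ≤ 8 * Real.pi ^ 2 →
      ∀ p X Y, Smooth X → Smooth Y →
        Riem cov X Y Y X p = ip X X p * ip Y Y p - ip X Y p ^ 2) :=
  final hdim cov hcov hEin hsec hinj μ hfin hdiv hball om hom hom1 a b ha hb
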