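import Vale.Agent.P224.MathlibUsed
import Vale.Agent.P224.Defs
import Vale.Agent.P224.Bdl.B5

namespace Vale.Agent.Results.P224.GapSixFifths

open scoped Manifold ContDiff RealInnerProductSpace
open MeasureTheory Module Vale.Agent.P224

theorem result {V W M : Type*}
    [NormedAddCommGroup V] [InnerProductSpace ℝ V] [FiniteDimensional ℝ V]
    [MeasurableSpace V] [BorelSpace V]
    [NormedAddCommGroup W] [InnerProductSpace ℝ W] [FiniteDimensional ℝ W]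
    (hV : 2 ≤ finrank ℝ V) (hW : finrank ℝ W = finrank ℝ V + 2)
    [TopologicalSpace M] [T2Space M] [CompactSpace M] [ConnectedSpace M]
    [ChartedSpace V M] [IsManifold 𝓘(ℝ, V) ∞ M] [MeasurableSpace M] [BorelSpace M]
    (F : M → W) (hF : ContMDiff 𝓘(ℝ, V) 𝓘(ℝ, W) ∞ F) (hS : ∀ x, ‖F x‖ = 1)
    (himm : ∀ x, Function.Injective (mfderiv 𝓘(ℝ, V) 𝓘(ℝ, W) F x))
    (hmin : ∀ x n, IsUnitNormal V F x n → meanCurv V F x n = 0) :
    ((¬ ∃ a : W, a ≠ 0 ∧ ∀ x, ⟪F x, a⟫ = 0) →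
      ENNReal.ofReal (6 / 5 * sphereVol (finrank ℝ V)) ≤ volM V F Set.univ ∧
      ENNReal.ofReal (0.76 * leastClifford (finrank ℝ V)) ≤ volM V F Set.univ ∧
      (12 ≤ finrank ℝ V →
        ENNReal.ofReal (0.83 * leastClifford (finrank ℝ V)) ≤ volM V F Set.univ)) ∧
    (∀ N : M → W, ContMDiff 𝓘(ℝ, V) 𝓘(ℝ, W) ∞ N → (∀ x, IsUnitNormal V F x (N x)) →
      ∀ z, 36 * sphereVol (finrank ℝ V) ^ 2 ≤
        25 * (volM V F).real Set.univ ^ 2 + 11 * (∫ x, ⟪N x, N z⟫ ∂(volM V F)) ^ 2) :=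
  ⟨fun hng => PM.main_frac hV hW ⟨hF, hS, himm⟩ hmin hng,
    fun _ hNs hN z => PM.main_pt hV hW ⟨hF, hS, himm⟩ hmin hNs hN z⟩

end Vale.Agent.Results.P224.GapSixFifths
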