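import Vale.Agent.P225.Bdl.B4

namespace Vale.Agent.Results.P225.AsymptoticCone

open Vale.Agent.P225

/-- Dimension bounds for harmonic functions of polynomial growth on asymptotically conical
metrics on `ℝⁿ`: the bound by the spectrum of the cross-section, and Yau's inequality for all
cross-sections which are dominated by the round sphere. -/
theorem result {n : ℕ} (hn : 3 ≤ n) (g : RMetric n) (X : Section n) (hg : AsymptoticTo g X) :
    (∀ (d μ : ℝ) (N : ℕ), 0 ≤ d → X.EigenvalueGE N μ → d * (d + n - 2) < μ →
      DimLE (g.harm d) N) ∧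
    (X.Dominated → ∀ k : ℕ, 1 ≤ k → ∀ d : ℝ, 0 ≤ d → d < (k : ℝ) + 1 →
      DimLE (g.harm d) ((n + k - 1).choose k + (n + k - 2).choose (k - 1))) :=
  flag hn g X hg

end Vale.Agent.Results.P225.AsymptoticCone
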