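import Vale.Agent.P227.Bdl.B6

namespace Vale.Agent.Results.P227.LogBM

open Vale.Agent.P227.Fin2

theorem result :
    (∀ (n : ℕ) (K L : Set (E n)) (t : ℝ), 0 < n → SymConvexBody K → SymConvexBody L →
      0 ≤ t → t ≤ 1 → IsZonoid (logComb t K L) ∨ IsSlabs (logComb t K L) →
      evol K ^ (1 - t) * evol L ^ t ≤ evol (logComb t K L)) ∧
    (∀ (n : ℕ) (K L : Set (E n)), 0 < n → SymConvexBody K → IsZonoid K ∨ IsSlabs K →
      SymConvexBody L → (∃ ν, IsConeNormal K ν) ∧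
      ∀ ν, IsConeNormal K ν → evol K / n * Real.log (evol L / evol K) ≤ coneLogInt K L ν) ∧
    (∀ (n m : ℕ) (v w : Fin m → E n) (A : E n → E n) (K L : Set (E n)), n = m + 3 →
      SymConvexBody K → SymConvexBody L → Invariant v w K → Invariant v w L →
      ExtraSymmetry v w A → A '' K = K → A '' L = L →
      ∀ t : ℝ, 0 ≤ t → t ≤ 1 → evol K ^ (1 - t) * evol L ^ t ≤ evol (logComb t K L)) ∧
    (∀ (n : ℕ) (v w : Fin n → E n) (K : Set (E n)), 2 ≤ n →
      SymConvexBody K → Invariant v w K → C2Plus K → ∀ g : E n → ℝ, EvenSmooth g →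
      ∃ c : ℝ, 0 ≤ c ∧ ∀ l : ℝ, 0 ≤ l → l ≤ 1 → LimZero (deficit K g l) (l * (1 - l) * c)) :=
  ⟨part1, part2, part3, part4⟩

end Vale.Agent.Results.P227.LogBM
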