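import Vale.Agent.P228.MathlibUsed
import Vale.Agent.P228.DefsPt
import Vale.Agent.P228.Bdl.B4
namespace Vale.Agent.Results.P228.Pointwise

open Set Topology Vale.Agent.P228

/-- Hilbert-Smith for actions which, off a closed set `S`, are pointwise regular for residually
many group elements. -/
theorem result (p : ℕ) [Fact p.Prime] (n : ℕ) (M : Type*) [TopologicalSpace M] [T2Space M]
    [SecondCountableTopology M] [ChartedSpace (EuclideanSpace ℝ (Fin n)) M]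
    [AddAction ℤ_[p] M] [ContinuousVAdd ℤ_[p] M] (S : Set M) (hS : IsClosed S)
    (hreg : ∀ e ∈ atlas (EuclideanSpace ℝ (Fin n)) M, ∀ x ∈ e.source, x ∉ S →
      ∀ᶠ g in residual ℤ_[p], g +ᵥ x ∈ e.source →
        RegularAt n (fun z => e (g +ᵥ e.symm z)) (e x)) :
    (∀ x ∉ S, ∃ k : ℕ, ∀ᶠ y in 𝓝 x, ∀ u : ℤ_[p], ((p : ℤ_[p]) ^ k * u) +ᵥ y = y) ∧
    (Dense Sᶜ → IsConnected Sᶜ →
      (∃ k : ℕ, ∀ (u : ℤ_[p]) (x : M), ((p : ℤ_[p]) ^ k * u) +ᵥ x = x) ∧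
        ¬ FaithfulVAdd ℤ_[p] M) := by
  have hreg' : ∀ x₁ : M, ∀ x ∈ (chartAt (EuclideanSpace ℝ (Fin n)) x₁).source, x ∈ Sᶜ →
      ∀ᶠ g in residual ℤ_[p], g +ᵥ x ∈ (chartAt (EuclideanSpace ℝ (Fin n)) x₁).source →
        TypeSP (chartMap (chartAt (EuclideanSpace ℝ (Fin n)) x₁) g)
          (chartAt (EuclideanSpace ℝ (Fin n)) x₁ x) := by
    intro x₁ x hx hxS
    filter_upwards [hreg _ (chart_mem_atlas _ x₁) x hx hxS] with g hg hgx
    exact (hg hgx).typeSP (chartMap_eventually_contAt _ hx hgx)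
  refine ⟨fun x hx => ?_, fun hd hc => ?_⟩
  · obtain ⟨k, hk⟩ := mem_iUnion.1 (subset_locTriv (chartAt (EuclideanSpace ℝ (Fin n)) x)
      hS.isOpen_compl (hreg' x) (mem_chart_source _ x) hx)
    exact ⟨k, mem_interior_iff_mem_nhds.1 hk⟩
  · obtain ⟨k, hk⟩ := exists_trivial_of_typeSP hS.isOpen_compl hd hc.isPreconnected hc.nonempty
      (fun x => chartAt (EuclideanSpace ℝ (Fin n)) x) (fun x => mem_chart_source _ x) hreg'
    exact ⟨⟨k, hk⟩, not_faithful_of_trivial hk⟩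

end Vale.Agent.Results.P228.Pointwise
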