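import Vale.Agent.P231.Bdl.B3

open Matrix Real

namespace Vale.Agent.Results.P231.ClosedGeodesic

/-- Sharp averaged volume density inequality along a closed geodesic of Blaschke type. -/
theorem result {N l : ℕ} (X : Vale.Agent.P231.Ode.JSys N) (Q : Matrix (Fin N) (Fin N) ℝ)
    (hQ : Q * Qᵀ = 1) (hC : ∀ t, X.C (t + π) = Q * X.C t) (hS : ∀ t, X.S (t + π) = Q * X.S t)
    (hinv : ∀ s t, s < t → t < s + π / 2 → (X.A s t).det ≠ 0)
    (hl : ∀ s, Module.finrank ℝ (LinearMap.ker (X.A s (s + π / 2)).mulVecLin) ≤ l) :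
    (∀ r ∈ Set.Ioo 0 (π / 2), l * log (cos r) + N * log (sin r) ≤
      (1 / π) * ∫ s in (0 : ℝ)..π, log |(X.A s (s + r)).det|) ∧
    (∀ r ∈ Set.Ioo 0 (π / 2), cos r ^ l * sin r ^ N ≤
      (1 / π) * ∫ s in (0 : ℝ)..π, |(X.A s (s + r)).det|) ∧
    ((∀ r ∈ Set.Ioo 0 (π / 2), (1 / π) * ∫ s in (0 : ℝ)..π, |(X.A s (s + r)).det| ≤
      cos r ^ l * sin r ^ N) →
      ∃ P : Matrix (Fin N) (Fin N) ℝ, Pᵀ = P ∧ P * P = P ∧ P.rank = l ∧
        ∀ t, X.R t = 1 + (3 : ℝ) • P) := by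
  have h : Vale.Agent.P231.Ode.Closed X
      ⟨Q, (Matrix.mem_orthogonalGroup_iff (Fin N) ℝ).2 hQ⟩ := ⟨hC, hS, hinv⟩
  have hl0 : Module.finrank ℝ (LinearMap.ker (X.A 0 (π / 2)).mulVecLin) ≤ l := by
    have := hl 0
    rwa [zero_add] at this
  refine ⟨fun r hr => ?_, fun r hr => ?_, fun hle => ?_⟩
  · have h1 := h.ineq hl0 hr
    rw [one_div, ← div_eq_inv_mul, le_div_iff₀ pi_pos, mul_comm]
    exact h1
  · have h1 := (h.det_ineq hl0 hr).1
    rw [one_div, ← div_eq_inv_mul, le_div_iff₀ pi_pos, mul_comm]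
    exact h1
  · refine h.rigid hl fun s t h1 h2 => ?_
    have hr : t - s ∈ Set.Ioo 0 (π / 2) := ⟨by linarith, by linarith⟩
    have h3 := hle _ hr
    rw [one_div, ← div_eq_inv_mul, div_le_iff₀ pi_pos, mul_comm] at h3
    have h4 := (h.det_ineq hl0 hr).2 h3 s
    rwa [add_sub_cancel] at h4

end Vale.Agent.Results.P231.ClosedGeodesic
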