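import Vale.Agent.P232.Bdl.B2

namespace Vale.Agent.Results.P232.FullProfile

open Vale.Agent.P232

theorem result (V : ℝ) (h0 : 0 < V) (h1 : V < 1) :
    profile 3 V = ENNReal.ofReal (J V) :=
  profile_eq_J h0 h1

end Vale.Agent.Results.P232.FullProfile
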