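import Vale.Agent.P233.Bdl.B1

open MeasureTheory

universe u

namespace Vale.Agent.Results.P233.Dim2

open Vale.Agent.P233.S

/-- Every complete separable metric measure space that is `RCD(κ,2)` has distributional sectional
curvature `≥ κ`. The first conclusion says that `L²(TM)` exists. -/
theorem result {M : Type u} [MetricSpace M] [CompleteSpace M] [SecondCountableTopology M]
    [MeasurableSpace M] [BorelSpace M] (m : Measure M) (κ : ℝ) (h : IsRCD m κ 2) :
    (∃ (H : Type u) (_ : NormedAddCommGroup H) (_ : InnerProductSpace ℝ H) (ι : VF M → H),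
      (sob m).IsL2TM ι) ∧ (sob m).DistSecGE κ :=
  Vale.Agent.P233.plain_main m κ h

end Vale.Agent.Results.P233.Dim2
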