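import Vale.Agent.P234.Bd3.B3

/-! Weak MTW implies convexity of all tangent injectivity domains, in all dimensions. -/

open Bundle Manifold
open scoped ContDiff Manifold

namespace Vale.Agent.Results.P234.WeakMTWConvex

open Vale.Agent.P234

/-- On a compact connected Riemannian manifold satisfying the weak Ma-Trudinger-Wang condition,
every tangent injectivity domain is convex. -/
theorem result {E : Type*} [NormedAddCommGroup E] [NormedSpace ℝ E] [FiniteDimensional ℝ E]
    {M : Type*} [MetricSpace M] [ChartedSpace E M] [IsManifold 𝓘(ℝ, E) ∞ M]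
    [RiemannianBundle (fun x : M => TangentSpace 𝓘(ℝ, E) x)]
    [IsContMDiffRiemannianBundle 𝓘(ℝ, E) ∞ E (fun x : M => TangentSpace 𝓘(ℝ, E) x)]
    [IsRiemannianManifold 𝓘(ℝ, E) M] [CompactSpace M] [ConnectedSpace M]
    (e : ∀ x : M, TangentSpace 𝓘(ℝ, E) x → M) (he : IsExp e) (hW : WeakMTW e) (x : M) :
    Convex ℝ (injDomain e x) :=
  convex_injDomain (facts_of_isExp he) hW x

end Vale.Agent.Results.P234.WeakMTWConvex
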