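import Vale.Agent.P237.J4.All4

namespace Vale.Agent.Results.P237.AllDim4

open Vale.Agent.P237.Statement Module

/-- Every convex body has exactly one projection body; Petty's conjecture (sharp inequality and
equality cases) holds in dimensions three and four; and Petty's inequality holds in every dimension
`n ≥ 5` up to the factor `√(3π)/4 > 0.76`. -/
theorem result {V : Type} [NormedAddCommGroup V] [InnerProductSpace ℝ V] [FiniteDimensional ℝ V]
    [MeasurableSpace V] [BorelSpace V] :
    (∀ K : Set V, IsConvexBody K → ∃! L, IsProjectionBody K L) ∧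
      (finrank ℝ V = 3 → PettyIn V 3) ∧
      (finrank ℝ V = 4 → PettyIn V 4) ∧
      (∀ n : ℕ, 5 ≤ n → finrank ℝ V = n → ∀ K L : Set V, IsConvexBody K → IsProjectionBody K L →
        Real.sqrt (3 * Real.pi) / 4 *
          (kappa (n - 1) ^ n * kappa n ^ (2 - (n : ℤ)) * vol K ^ (n - 1)) ≤ vol L) :=
  ⟨fun _ hK => existsUnique_projectionBody hK, petty_dim_three, Vale.Agent.P237.J4.petty_four,
    fun _ hn hd _ _ hK hL => almost_petty4 (Nat.le_of_succ_le hn) hd hK hL⟩

end Vale.Agent.Results.P237.AllDim4
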