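import Vale.Agent.P237.Bdl.B5

namespace Vale.Agent.Results.P237.Dim3

open Vale.Agent.P237.Statement Module

/-- Every convex body has exactly one projection body, and Petty's conjecture (inequality and
equality cases) holds in dimension three. -/
theorem result {V : Type} [NormedAddCommGroup V] [InnerProductSpace ℝ V] [FiniteDimensional ℝ V]
    [MeasurableSpace V] [BorelSpace V] :
    (∀ K : Set V, IsConvexBody K → ∃! L, IsProjectionBody K L) ∧
      (finrank ℝ V = 3 → PettyIn V 3) :=
  ⟨fun _ hK => existsUnique_projectionBody hK, petty_dim_three⟩

end Vale.Agent.Results.P237.Dim3
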