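import Vale.Agent.P238.Bdl.B1

/-- The `ℓ₁` distortion of the edit distance on binary words of length `n` is at least
`c (log n)² / log log n`. -/
theorem Vale.Agent.Results.P238.LowerLogSq.result :
    ∃ c : ℝ, 0 < c ∧ ∀ n : ℕ, 3 ≤ n →
      c * (Real.log n) ^ 2 / Real.log (Real.log n) ≤ Vale.Agent.P238.c1 (Vale.Agent.P238.binED n) :=
  Vale.Agent.P238.main_lower
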