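import Vale.Agent.P243.Bdl.B1

namespace Vale.Agent.Results.P243.StrongForm

open Vale.Agent.P243.Plain

/-- The infimum `r3` of the directionwise relative area is at most `5 / 12`, and some convex body
has a finite cylinder covering of directionwise relative area smaller than `1 / 2`. -/
theorem result :
    r3 ≤ 5 / 12 ∧ ∃ K, IsConvexBody K ∧ ∃ C : CylinderCovering K, C.relArea < 1 / 2 := by
  refine ⟨Vale.Agent.P243.Bridge.r3_le Vale.Agent.P243.isConvexBody_K0
    Vale.Agent.P243.exists_covering_K0, ?_⟩
  obtain ⟨C, hC⟩ := Vale.Agent.P243.exists_covering_K0 (1 / 24) (by norm_num)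
  obtain ⟨C', _, hC'⟩ := Vale.Agent.P243.Bridge.transfer C
  refine ⟨_, Vale.Agent.P243.Bridge.isConvexBody_flat Vale.Agent.P243.isConvexBody_K0, C', ?_⟩
  rw [hC']
  exact lt_of_le_of_lt hC (by norm_num)

end Vale.Agent.Results.P243.StrongForm
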