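import Vale.Agent.P244.MathlibUsed
import Vale.Agent.P244.BBDefs
import Vale.Agent.P244.Bdl.B2
import Vale.Agent.P244.Bdl.B3

open Set

namespace Vale.Agent.Results.P244.TwoBolts

open Vale.Agent.P244.Bolt Vale.Agent.P244.BB

/-- A Ricci flow `g(t) = w^2 dz^2 + b^2 η^2 + a^2 g_B`, `0 ≤ t < T < ∞`, on a closed `CP^1`-bundle
over a Kähler-Einstein base with bounded scalar curvature has bounded curvature. -/
theorem result (g : Profile) (m : ℕ) (κ T R₀ : ℝ) (hm : 1 ≤ m) (hκ : 0 < κ) (hT : 0 < T)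
    (hflow : g.IsRicciFlow m κ T)
    (hscal : ∀ p ∈ Ioo (-1 : ℝ) 1 ×ˢ Ico 0 T, |g.scal m p| ≤ R₀) :
    ∃ C : ℝ, g.CurvatureBound T C := by
  have hg := hflow.toIsMetricFamily
  have hM := Profile.toR_isRF hflow hκ
  have hR := Profile.toR_sc (m := m) hg hκ hscal
  obtain ⟨c, hc, hA⟩ := (Profile.toR (m := m) hg hκ).A_ge hM hm hT hR
  obtain ⟨C, hC⟩ := (Profile.toR (m := m) hg hκ).bounded_of_A_ge hM hm hT hR hc hA
  exact ⟨C, Profile.curvatureBound_of hg hκ hC⟩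

end Vale.Agent.Results.P244.TwoBolts
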