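import Vale.Agent.P249.Bdl.B1

open MeasureTheory Filter Asymptotics
open scoped ENNReal

theorem Vale.Agent.Results.P249.Bounds.result (p : ℝ≥0∞) [Fact (1 ≤ p)] (hptop : p ≠ ∞) :
    -- (1) `d_p(n, D) = O(n ^ ε)` for all distortions `D ≥ D₀(p, ε)`
    (∀ ε : ℝ, 0 < ε → ∃ D₀ C : ℝ, 1 ≤ D₀ ∧ 0 < C ∧ ∀ D : ℝ, D₀ ≤ D → ∀ n : ℕ, 1 ≤ n →
      Vale.Agent.P249.Admissible p n D (Vale.Agent.P249.dimLp p n D) ∧
        (Vale.Agent.P249.dimLp p n D : ℝ) ≤ C * (n : ℝ) ^ ε) ∧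
    -- (2) in particular `d_p(n, D) = o(n)` for all distortions `D ≥ D₀(p)`
    (∃ D₀ : ℝ, 1 ≤ D₀ ∧ ∀ D : ℝ, D₀ ≤ D →
      (fun n : ℕ => (Vale.Agent.P249.dimLp p n D : ℝ)) =o[atTop] (fun n : ℕ => (n : ℝ))) ∧
    -- (3) `d_p(n, D) = O(n log n)` for all distortions `D > 1`
    (∀ D : ℝ, 1 < D → ∃ C : ℝ, 0 < C ∧ ∀ n : ℕ, 2 ≤ n →
      Vale.Agent.P249.Admissible p n D (Vale.Agent.P249.dimLp p n D) ∧
        (Vale.Agent.P249.dimLp p n D : ℝ) ≤ C * n * Real.log n) ∧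
    -- (4) `d_p(n, D) ≥ c (log n / log log n) ^ (p / 2)` for `p > 2` and all distortions
    (2 < p → ∀ D : ℝ, 1 ≤ D → ∃ c : ℝ, 0 < c ∧ ∀ n : ℕ, 3 ≤ n → ∀ d : ℕ,
      Vale.Agent.P249.Admissible p n D d →
        c * (Real.log n / Real.log (Real.log n)) ^ (p.toReal / 2) ≤ d) :=
  ⟨Vale.Agent.P249.dimLp_le_power p hptop, Vale.Agent.P249.dimLp_isLittleO p hptop,
    Vale.Agent.P249.dimLp_le_nlogn p hptop, fun _ => Vale.Agent.P249.lower_admissible p hptop⟩
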