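import Vale.Agent.P250.Bdl.B3
/-!
A simply connected domain `M` in `ℂ³` with a complete Kaehler metric whose sectional curvatures
lie between two negative constants, and which is not biholomorphic to a bounded domain.
-/

namespace Vale.Agent.Results.P250.PinchedUnbounded

open Vale.Agent.P250.S

theorem result : ∃ (M : Set (ℂ × ℂ × ℂ)) (g : ℂ × ℂ × ℂ → ℂ × ℂ × ℂ → ℂ × ℂ × ℂ → ℝ)
    (Γ : ℂ × ℂ × ℂ → ℂ × ℂ × ℂ → ℂ × ℂ × ℂ → ℂ × ℂ × ℂ),
    IsOpen M ∧ SimplyConnectedSpace M ∧ IsKaehlerMetric g M ∧ IsLeviCivita g Γ M ∧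
    GeodesicallyComplete Γ M ∧
    (∃ a b : ℝ, 0 < a ∧ a ≤ b ∧ ∀ p ∈ M, ∀ X Y, LinearIndependent ℝ ![X, Y] →
      -b ≤ sectional g Γ p X Y ∧ sectional g Γ p X Y ≤ -a) ∧
    ¬ BiholomorphicToBoundedDomain M :=
  Vale.Agent.P250.main'

end Vale.Agent.Results.P250.PinchedUnbounded
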