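import Vale.Agent.P255.FinalDefs
import Vale.Agent.P255.Bdl.B2

open scoped Manifold ContDiff

namespace Vale.Agent.Results.P255.Disproof

open Vale.Agent.P255

/-- There is a closed connected smooth three-manifold which carries a smooth Riemannian metric
without conjugate points, but no smooth Riemannian metric of nonpositive sectional curvature. -/
theorem result :
    ∃ (E : Type) (_ : NormedAddCommGroup E) (_ : NormedSpace ℝ E)
      (M : Type) (_ : TopologicalSpace M) (_ : ChartedSpace E M) (_ : IsManifold 𝓘(ℝ, E) ∞ M),
      Module.finrank ℝ E = 3 ∧
      CompactSpace M ∧ T2Space M ∧ SecondCountableTopology M ∧ ConnectedSpace M ∧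
      (∃ g : RMetric E M, NoConjugatePoints g) ∧ ¬ ∃ g : RMetric E M, NonposCurvature g :=
  main_result

end Vale.Agent.Results.P255.Disproof
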