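import Vale.Agent.P262.Bdl.B2
import Vale.Agent.P262.Bdl.B1

open scoped ENNReal

namespace Vale.Agent.Results.P262.SteinitzSqrt

open Vale.Agent.P262 Vale.Agent.P262.Sqrt

/-- The Euclidean Steinitz constant has order `√d`: there are absolute constants `c, C > 0` with
`c √d ≤ S_2(d) ≤ C √d` for every `d ≥ 1`. -/
theorem result : ∃ c C : ℝ, 0 < c ∧ 0 < C ∧ ∀ d : ℕ, 1 ≤ d →
    ENNReal.ofReal (c * Real.sqrt d) ≤ steinitzConst d ∧
      steinitzConst d ≤ ENNReal.ofReal (C * Real.sqrt d) := by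
  obtain ⟨c, hc, hlow⟩ := SqrtLower.lower
  have hstage : StageProp := stage_of_tool toolProp
  obtain ⟨C, hC, hup⟩ := final_of_core eigenProp
    (coreProp (nodeProp hstage tiltProp updateProp) potProp schedProp)
  refine ⟨c, C + 1, hc, by linarith, fun d hd => ⟨hlow d hd, ?_⟩⟩
  refine (hup d hd).trans (ENNReal.ofReal_le_ofReal ?_)
  have := Real.sqrt_nonneg (d : ℝ)
  nlinarith

end Vale.Agent.Results.P262.SteinitzSqrt
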