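import Vale.Agent.P266.Bdl.B3

/-!
# P266: nonnegatively graded algebras with projective module of derivations
-/

namespace Vale.Agent.Results.P266.Graded

open Vale.Agent.P266

theorem result (A : Type) [CommRing A] [IsDomain A] [Algebra ℂ A] [Algebra.FiniteType ℂ A]
    [Module.Projective A (Derivation ℂ A A)] :
    IsIntegrallyClosed A ∧
    ∀ (𝒜 : ℕ → Submodule ℂ A) [GradedAlgebra 𝒜],
      Algebra.Smooth (𝒜 0) A ∧
      Module.Projective (𝒜 0) (Derivation ℂ (𝒜 0) (𝒜 0)) ∧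
      (Algebra.Smooth ℂ (𝒜 0) → Algebra.Smooth ℂ A) ∧
      (ringKrullDim (𝒜 0) ≤ 1 → Algebra.Smooth ℂ A) := by
  have hA : IsIntegrallyClosed A := isIntegrallyClosed_of_projective ℂ A
  refine ⟨hA, fun 𝒜 _ => ?_⟩
  obtain ⟨h1, h2, -⟩ := graded_main_of_normal 𝒜
  have hst := isScalarTower_zero 𝒜
  have hdom : IsDomain (𝒜 0) := (FaithfulSMul.algebraMap_injective (𝒜 0) A).isDomain
    (algebraMap (𝒜 0) A)
  have h3 : Algebra.Smooth ℂ (𝒜 0) → Algebra.Smooth ℂ A := fun h =>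
    Algebra.Smooth.comp ℂ (𝒜 0) A
  refine ⟨h1, h2, h3, fun h => h3 ?_⟩
  have hnor := isIntegrallyClosed_zero 𝒜
  have hft : Algebra.FiniteType ℂ (𝒜 0) :=
    Algebra.FiniteType.of_surjective
      ((projAlg 𝒜).restrictScalars ℂ) (GradedRing.projZeroRingHom'_surjective 𝒜)
  exact smooth_of_dim_le_one ℂ h

end Vale.Agent.Results.P266.Graded
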