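import Vale.Agent.P274.Bdl.B11

open Vale.Agent.P274

/-- A bounded connected semialgebraic relatively open subset `U` of a closed affine variety (the
zero set of an arbitrary set `I` of polynomials; `U` may be singular), on which a group acts
holomorphically with compact quotient, is biholomorphic to a bounded domain of `ℂ^n` and to a
convex open subset of `ℂ^n`. If the action is properly discontinuous, the theorem of Frankel says
that `U` is biholomorphic to a bounded symmetric domain. -/
theorem Vale.Agent.Results.P274.SemialgebraicInVarieties.result (N : ℕ)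
    (I : Set (MvPolynomial (Fin N) ℂ)) (U : Set (EuclideanSpace ℂ (Fin N)))
    (hU : ∃ O, IsOpen O ∧ U = zeroSet I ∩ O) (hUc : IsConnected U)
    (hb : Bornology.IsBounded U) (hS : IsSemialgebraic U)
    (Γ : Type) [Group Γ] [MulAction Γ U] (hΓ : ActsHol Γ U)
    (hcpt : CompactSpace (MulAction.orbitRel.Quotient Γ U)) :
    ∃ n : ℕ, (∃ B V : Set (EuclideanSpace ℂ (Fin n)), IsOpen B ∧ Bornology.IsBounded B ∧
        IsOpen V ∧ Convex ℝ V ∧ Z.Bihol U B ∧ Z.Bihol U V) ∧
      (FrankelTheorem n → ProperlyDiscontinuousSMul Γ U →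
        ∃ D : Set (EuclideanSpace ℂ (Fin n)), IsBoundedSymmetricDomain D ∧ Z.Bihol U D) :=
  Z.varieties_result N I U hU hUc hb hS Γ hΓ hcpt
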