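import Vale.Agent.P290.Bdl.B3

open Set Vale.Agent.P290 Vale.Agent.P290.Kum
open scoped Manifold ContDiff Topology

/-- Every Kummer surface is Oka: for every lattice in `ℂ²`, with basis `l`, the Kummer surface of the
complex torus `ℂ²/L` exists, and every complex surface which is the Kummer surface of this torus is
Oka. -/
theorem Vale.Agent.Results.P290.KummerOka.result :
    ∀ l : Fin 4 → C2, LinearIndependent ℝ l →
      (∃ (X : Type) (_ : TopologicalSpace X) (_ : ChartedSpace C2 X), IsKummer l X) ∧
      ∀ (X : Type) [TopologicalSpace X] [ChartedSpace C2 X], IsKummer l X → IsOka X :=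
  fun l hl => kummer_main l hl
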