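import Vale.Agent.P292.Bdl.B4
import Vale.Agent.P292.Bdl.B7
import Vale.Agent.P292.Bdl.B2

namespace Vale.Agent.Results.P292.ContactField

open Vale.Agent.P292

universe u

/-- The contact form of the LeBrun-Salamon conjecture (Q2) holds for every contact Fano manifold
with a contact vector field `f ∈ H⁰(X, L)` which is not nilpotent (`P f` is not locally nilpotent
on the section ring), that is, whose group of contact automorphisms is not unipotent; it also
holds when `L` is base point free. -/
theorem result {R : Type u} [CommRing R] [Algebra ℂ R] (𝒜 : ℕ → Submodule ℂ R)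
    [GradedAlgebra 𝒜] (P : R →ₗ[ℂ] R →ₗ[ℂ] R) (hX : IsContactFano 𝒜 P)
    (h : (∃ f ∈ 𝒜 1, ∃ r, ∀ n : ℕ, (⇑(P f))^[n] r ≠ 0) ∨ IsBasePointFree 𝒜) :
    IsAdjointVariety 𝒜 P := by
  rcases h with ⟨f, hf, r, hr⟩ | hb
  · obtain ⟨k, s, hs, hn⟩ := exists_homogeneous_of_not_nilpotent (𝒜 := 𝒜) (P f) hr
    obtain ⟨H, hH⟩ := exists_isContactTorus_of_not_nilpotent hX hf hs hn
    exact isAdjointVariety_of_torus' hX hH
  · obtain ⟨e, h, f, x, hC, hss⟩ := hX.exists_isCore hb
    exact hC.isAdjointVariety hss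

end Vale.Agent.Results.P292.ContactField
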