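import Vale.Agent.P292.Bn.N16
import Vale.Agent.P292.Bn.N12
import Vale.Agent.P292.K.TwDef
import Vale.Agent.P292.Bn.N15

namespace Vale.Agent.Results.P292.TwistorLine

open Vale.Agent.P292

universe u

/-- The LeBrun-Salamon conjecture for contact Fano manifolds which contain one very free conic,
that is, one rational curve of `L`-degree two with normal bundle `O(1) ^ 2n`, as every twistor
space does: they are adjoint varieties. -/
theorem result {R : Type u} [CommRing R] [Algebra ℂ R] (𝒜 : ℕ → Submodule ℂ R)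
    [GradedAlgebra 𝒜] (P : R →ₗ[ℂ] R →ₗ[ℂ] R) (hX : IsContactFano 𝒜 P)
    (hdim : 3 ≤ Algebra.trdeg ℂ R) (hc : HasVeryFreeConic 𝒜) : IsAdjointVariety 𝒜 P := by
  have := hX.domain
  have := hX.finiteType
  obtain ⟨φ, hφ, hv⟩ := hc
  exact asm_conicConnected hX (le_cdim_of_le_trdeg (n := 3) (by exact_mod_cast hdim))
    (VF.isConicConnected_of_isVeryFree hX hφ hv)

end Vale.Agent.Results.P292.TwistorLine
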