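import Vale.Agent.P304.Bdl.B2

open scoped ENNReal NNReal

namespace Vale.Agent.Results.P304.Polylog

open Vale.Agent.P304

/-- **The randomized `k`-server ratio is polylogarithmic in `k` on all metric spaces.**
There is an absolute constant `C` such that, for every `k ≥ 1`,
`R k ≤ C (1 + log k) ^ 7`; moreover `R k ≤ C (1 + log k) ^ 5 * Rult k`, where `Rult k` is the
supremum of the ratio over finite ultrametric spaces, and `Rult k ≤ C (1 + log k) ^ 2`. -/
theorem result : ∃ C : ℝ, 0 < C ∧ ∀ k : ℕ, 1 ≤ k →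
    R k ≤ ENNReal.ofReal (C * (1 + Real.log k) ^ 7) ∧
    R k ≤ ENNReal.ofReal (C * (1 + Real.log k) ^ 5) * Rult k ∧
    Rult k ≤ ENNReal.ofReal (C * (1 + Real.log k) ^ 2) := by
  obtain ⟨C₁, hC₁, h₁⟩ := Dyn.R_le_polylog_Rult
  obtain ⟨C₂, hC₂, h₂⟩ := HST.exists_Rult_le
  refine ⟨C₁ * C₂ + C₁ + C₂, by positivity, fun k hk => ?_⟩
  have hlog : 0 ≤ Real.log k := Real.log_nonneg (by exact_mod_cast hk)
  have hL : (0 : ℝ) ≤ 1 + Real.log k := by linarith
  have h12 : 0 < C₁ * C₂ := mul_pos hC₁ hC₂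
  refine ⟨?_, ?_, ?_⟩
  · calc R k ≤ ENNReal.ofReal (C₁ * (1 + Real.log k) ^ 5) * Rult k := h₁ k hk
      _ ≤ ENNReal.ofReal (C₁ * (1 + Real.log k) ^ 5) *
          ENNReal.ofReal (C₂ * (1 + Real.log k) ^ 2) := by gcongr; exact h₂ k hk
      _ = ENNReal.ofReal (C₁ * C₂ * (1 + Real.log k) ^ 7) := by
          rw [← ENNReal.ofReal_mul (by positivity)]
          congr 1
          ring
      _ ≤ ENNReal.ofReal ((C₁ * C₂ + C₁ + C₂) * (1 + Real.log k) ^ 7) := by
          refine ENNReal.ofReal_le_ofReal (mul_le_mul_of_nonneg_right ?_ (by positivity))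
          linarith
  · refine (h₁ k hk).trans ?_
    gcongr
    linarith
  · refine (h₂ k hk).trans (ENNReal.ofReal_le_ofReal (mul_le_mul_of_nonneg_right ?_ (by positivity)))
    linarith

end Vale.Agent.Results.P304.Polylog
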