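import Vale.Agent.P308.Bd3.B8

namespace Vale.Agent.Results.P308.QuasiPoly

open Vale.Agent.P308.QP

/-- There is a randomized approximation scheme for the number of perfect matchings of an
arbitrary graph with running time `n ^ O(log n)` times a polynomial in `1 / ε` and
`log (1 / δ)`. -/
theorem result :
    ∃ (f : List Bool → List Bool)
      (M : Turing.TM2ComputableInPolyTime (id : List Bool → List Bool)
        (id : List Bool → List Bool) f), (∀ k, Finite (M.tm.Γ k)) ∧
      ∃ d d' : ℕ, ∀ (n : ℕ) (G : SimpleGraph (Fin n)) (ε δ : ℝ), 0 < ε → ε < 1 → 0 < δ → δ < 1 →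
        ∀ e l b : ℕ, e = ⌈1 / ε⌉₊ → l = ⌈Real.logb 2 (1 / δ)⌉₊ →
          b = (n + 2) ^ Nat.log 2 (n + 2) * (e + l + 2) →
          (∀ w : List Bool, w.length = b ^ d →
            M.time.eval (block (inputWord G e l) w).length ≤ b ^ d') ∧
          1 - δ ≤ prob (b ^ d) fun w => ∃ a : ℕ, f (block (inputWord G e l) w) = a.bits ∧
            (1 - ε) * numPM G ≤ a ∧ a ≤ (1 + ε) * numPM G :=
  exists_scheme

end Vale.Agent.Results.P308.QuasiPoly
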