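import Vale.Agent.P310.Full

/-!
P310: deciding `k`-WL equivalence takes time `n ^ Ω(k)`.
-/

namespace Vale.Agent.Results.P310.LowerBound

open Filter Asymptotics Vale.Agent.P310

/-- For every `k ≥ 2` and every deterministic multitape Turing machine that decides `k`-WL
equivalence of two graphs with `n` vertices each in time `T n`, the function `T` is not
`O(n ^ (k / 17))`, and moreover `n ^ (k / 17) ≤ T n` for all large squares `n = m ^ 2`.
In particular there is no `g` with `g k = o(k)` such that for every fixed `k` some machine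
decides `k`-WL equivalence in time `O(n ^ g k)`. -/
theorem result :
    (∀ k : ℕ, 2 ≤ k → ∀ (M : TM) (T : ℕ → ℕ), M.DecidesWL k T →
      (¬ (fun n : ℕ => (T n : ℝ)) =O[atTop] fun n : ℕ => (n : ℝ) ^ ((k : ℝ) / 17)) ∧
      ∀ᶠ m : ℕ in atTop, ((m ^ 2 : ℕ) : ℝ) ^ ((k : ℝ) / 17) ≤ T (m ^ 2)) ∧
    ¬ ∃ g : ℕ → ℝ, g =o[atTop] (fun k : ℕ => (k : ℝ)) ∧
      ∀ k : ℕ, 2 ≤ k → ∃ (M : TM) (T : ℕ → ℕ), M.DecidesWL k T ∧
        (fun n : ℕ => (T n : ℝ)) =O[atTop] fun n : ℕ => (n : ℝ) ^ g k :=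
  ⟨fun k hk M T hT => ⟨not_isBigO k hk M T hT, eventually_rpow_le k hk M T hT⟩,
    not_exists_littleO⟩

end Vale.Agent.Results.P310.LowerBound
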