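import Vale.Agent.P328.Bdl.B1
namespace Vale.Agent.Results.P328.Sampler

open Vale.Agent.P328.RM Vale.Agent.P328.SM

/-- Contingency tables with arbitrary margins can be sampled almost uniformly in polynomial time:
there is a polynomial time randomized algorithm, and (second part) the `2 × 2` heat-bath chain,
which it simulates, mixes rapidly for all margins. -/
theorem result :
    ((∃ (f : List Bool → List Bool) (q : Polynomial ℕ), IsSampler f q) ∧
      ∀ (m n : ℕ) (r : Fin m → ℕ) (c : Fin n → ℕ) (k : ℕ),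
        (inputWord r c k).length ≤ 8 * (inputSize r c + 1) + k) ∧
    ∀ (m n : ℕ) (r : Fin m → ℕ) (c : Fin n → ℕ), 2 ≤ m → 2 ≤ n →
      ((∀ X Y, 0 ≤ step r c X Y ∧ step r c X Y = step r c Y X) ∧ ∀ X, ∑ Y, step r c X Y = 1) ∧
      SecondEigLe (step r c) (1 - 4 / ((m : ℝ) ^ 2 * (n : ℝ) ^ 2)) ∧
      ∀ (X : Omega r c) (ε : ℝ), 0 < ε → ∀ t : ℕ,
        (m : ℝ) ^ 2 * (n : ℝ) ^ 2 / 4 *
          ((m : ℝ) * n / 2 * Real.log ((∑ i, r i : ℕ) + 1) + Real.log (1 / ε)) ≤ t →
        tv ((step r c ^ t) X) (fun _ => 1 / (Fintype.card (Omega r c) : ℝ)) ≤ ε :=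
  ⟨⟨exists_sampler, fun _ _ r c k => length_inputWord r c k⟩,
    fun _ _ r c hm hn => all_parts r c hm hn⟩

end Vale.Agent.Results.P328.Sampler
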