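import Vale.Agent.P329.ClassDefs
import Vale.Agent.P329.Bdl.B2

namespace Vale.Agent.Results.P329.AbByElem

open Vale.Agent.P329

/-- Let `G` be a quotient of a subgroup `D` of a finite direct product of finite groups each of
which is abelian-by-(elementary abelian `p`) for some prime `p`. Then every language recognised
by `G` is denoted by a generalized regular expression of star height at most one. -/
theorem result {α : Type} [Finite α] {ι : Type} [Finite ι] {H : ι → Type}
    [∀ i, Group (H i)] [∀ i, Finite (H i)] (hH : ∀ i, AbelianByElementary (H i))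
    (D : Subgroup (∀ i, H i)) {G : Type} [Group G] (π : D →* G)
    (hπ : Function.Surjective π) (f : α → G) (S : Set G) :
    ∃ e : GRE α, e.height ≤ 1 ∧ e.lang = {w : List α | (w.map f).prod ∈ S} := by
  classical
  choose F hF using fun a => hπ (f a)
  have h1 : ∀ i, Kn fun w : List α => (w.map fun a => (F a : ∀ i, H i) i).prod := by
    intro i
    obtain ⟨p, hp, A, h2, h3, h4⟩ := hH i
    exact group_known hp A h2 h3 h4 _
  have h2 := Kn.pi h1
  have h3 : ∀ w : List α, (fun i => (w.map fun a => (F a : ∀ i, H i) i).prod) =
      (((w.map F).prod : D) : ∀ i, H i) := by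
    intro w
    funext i
    induction w with
    | nil => rfl
    | cons a w ih =>
      rw [List.map_cons, List.prod_cons, ih, List.map_cons, List.prod_cons, Subgroup.coe_mul,
        Pi.mul_apply]
  have h4 : ∀ w : List α, π (w.map F).prod = (w.map f).prod := by
    intro w
    rw [map_list_prod, List.map_map]
    congr 1
    exact List.map_congr_left fun a _ => hF a
  have h5 : {w : List α | (w.map f).prod ∈ S} =
      ⋃ x : (∀ i, H i), ⋃ _ : ∃ d : D, (d : ∀ i, H i) = x ∧ π d ∈ S,
        {w : List α | (fun i => (w.map fun a => (F a : ∀ i, H i) i).prod) = x} := by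
    ext w
    simp only [Set.mem_iUnion]
    constructor
    · intro hw
      refine ⟨(((w.map F).prod : D) : ∀ i, H i), ⟨(w.map F).prod, rfl, ?_⟩, h3 w⟩
      rw [h4]; exact hw
    · rintro ⟨x, ⟨d, rfl, hd⟩, hw⟩
      have hw' := hw
      rw [Set.mem_ofPred_eq, h3 w] at hw'
      have h6 : (w.map F).prod = d := Subtype.ext hw'
      rw [← h6, h4] at hd
      exact hd
  rw [h5]
  exact SH.iUnion fun x => SH.iUnion_prop fun _ => h2 x

end Vale.Agent.Results.P329.AbByElem
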