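import Mathlib
import Vale.Agent.P333.Model
import Vale.Agent.P333.Bdl.B2
import Vale.Agent.P333.Bdl.B1

/-!
P333: a polynomial time `7/3`-approximation for the shortest common superstring problem.
-/

namespace Vale.Agent.Results.P333.Approx73

open Vale.Agent.P333

theorem result : HasApprox (7 / 3) := U.hasApprox_7_3_of U.rauzyBound

end Vale.Agent.Results.P333.Approx73
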