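import Mathlib
import Vale.Agent.P334.Defs
import Vale.Agent.P334.Bdl.B5

/-!
The standard relaxation of metric k-median has bicriteria integrality gap below 2, by an absolute
constant, on every instance, when logarithmically many extra centers are allowed; and gap below 2
for exactly k centers when its value grows at most by a constant factor if a fixed fraction of the
centers is taken away.
-/

namespace Vale.Agent.Results.P334.UniversalGap

open Vale.Agent.P334

theorem result :
    ∃ c K : ℝ, c < 2 ∧ 0 < K ∧
      (∀ (X : Type) [MetricSpace X] (J F : Finset X) (k m : ℕ), F.Nonempty → 1 ≤ k →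
        (k : ℝ) + K * (1 + Real.log J.card) ≤ m → opt J F m ≤ c * lpVal J F k) ∧
      (∀ θ B : ℝ, 0 < θ → θ ≤ 1 / 2 → 1 ≤ B → ∃ K' : ℝ, 0 < K' ∧
        ∀ (X : Type) [MetricSpace X] (J F : Finset X) (k : ℕ), F.Nonempty →
          K' * (1 + Real.log J.card) ≤ k → lpVal J F ((1 - θ) * k) ≤ B * lpVal J F k →
          opt J F k ≤ c * lpVal J F k) :=
  universal_and_exact

end Vale.Agent.Results.P334.UniversalGap
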