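import Vale.Agent.P335.Bdl.B2

namespace Vale.Agent.Results.P335.FullQ1

open Vale.Agent.P335

/-- The Kannan-Tetali-Vempala conjecture for simple graphs: the mixing time of the switch chain
is at most a fixed polynomial in `n`, for every `n ≥ 4` and every graphical degree vector. -/
theorem result : ∃ p : Polynomial ℕ, ∀ n : ℕ, 4 ≤ n → ∀ d : Fin n → ℕ, Graphical d →
    IsLeast {t : ℕ | MixedBy d t} (tmix d) ∧ tmix d ≤ p.eval n :=
  final_all

end Vale.Agent.Results.P335.FullQ1
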