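import Vale.Agent.P340.Bdl.B1

/-!
Weak normalization implies strong normalization for every functional pure type system: arbitrary
sorts, every sort has at most one type, and the sort of a product is determined by the sorts of
its domain and its codomain. No other condition on the axioms and the rules.
-/

namespace Vale.Agent.Results.P340.FunctionalBGK

open Vale.Agent.P340

universe u

/-- For functional specifications, weak normalization and strong normalization are equivalent. -/
theorem result {S : Type u} (P : Spec S)
    (hax : ∀ s t t' : S, P.ax s t → P.ax s t' → t = t')
    (hrule : ∀ s₁ s₂ s₃ s₃' : S, P.rule s₁ s₂ s₃ → P.rule s₁ s₂ s₃' → s₃ = s₃') :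
    WN P ↔ SN P :=
  main_functional P hax hrule

end Vale.Agent.Results.P340.FunctionalBGK
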