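import Vale.Agent.P347.Bdl.B8

/-! Hand-in for P347: the dimension exponent of the query complexity is at most `1/5`. -/

open MeasureTheory Filter

namespace Vale.Agent.Results.P347.OneFifth

open Vale.Agent.P347

/-- For every `δ > 0` and all large `d` there is an algorithm making at most `d ^ (1/5 + δ)`
queries which samples every target of the class within total variation `1/10`; consequently the
dimension exponent (limsup of `log Q(d) / log d`) is at most `1/5`. -/
theorem result :
    (∀ δ : ℝ, 0 < δ → ∀ᶠ d : ℕ in atTop, ∃ q : ℕ, (q : ℝ) ≤ (d : ℝ) ^ (1 / 5 + δ) ∧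
      ∃ A : Algo d q, A.Good) ∧
    limsup (fun d : ℕ => ((Real.log (Q d) / Real.log d : ℝ) : EReal)) atTop
      ≤ ((1 / 5 : ℝ) : EReal) := by
  refine ⟨fun δ hδ => main_exists5 hδ, ?_⟩
  refine EReal.le_of_forall_lt_iff_le.1 fun b hb => ?_
  have hb' : (1 / 5 : ℝ) < b := by exact_mod_cast hb
  refine limsup_le_of_le (by isBoundedDefault) ?_
  filter_upwards [Q_le5 (sub_pos.2 hb'), eventually_ge_atTop 2] with d hd hd2
  have hd0 : (1 : ℝ) < d := by exact_mod_cast hd2
  have hl : 0 < Real.log d := Real.log_pos hd0
  have e : (1 / 5 : ℝ) + (b - 1 / 5) = b := by ring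
  rw [e] at hd
  have : (Real.log (Q d) / Real.log d : ℝ) ≤ b := by
    rw [div_le_iff₀ hl]
    rcases Nat.eq_zero_or_pos (Q d) with hq | hq
    · rw [hq]
      simp only [Nat.cast_zero, Real.log_zero]
      have : 0 ≤ b := by linarith
      positivity
    · have hq' : (0 : ℝ) < Q d := by exact_mod_cast hq
      have h1 := Real.log_le_log hq' hd
      rwa [Real.log_rpow (by linarith)] at h1
  exact_mod_cast this

end Vale.Agent.Results.P347.OneFifth
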