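import Vale.Agent.P348.Defs
import Vale.Agent.P348.Bdl.B3
namespace Vale.Agent.Results.P348.HaldaneGapBound

open Vale.Agent.P348

/-- Haldane's conjecture for spin one with explicit constants: the gap of the periodic Heisenberg
antiferromagnet is bounded below by a positive constant uniformly in the even length `L ≥ 4`, it is
at least `1/520` for every even `L ≥ 96`, and `Δ₁ ≥ 1/370`. -/
theorem result :
    (∃ γ : ℝ, 0 < γ ∧ ∀ (L : ℕ) [NeZero L], Even L → 4 ≤ L →
      IsLeast (energies L) (E0 L) ∧ IsLeast {E ∈ energies L | E0 L < E} (E1 L) ∧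
        γ ≤ gap L) ∧
    (∀ (L : ℕ) [NeZero L], Even L → 96 ≤ L → 1 / 520 ≤ gap L) ∧
    ((1 / 370 : ℝ) : EReal) ≤ Delta1 :=
  ⟨haldane_gap.1, fun L _ hev hL => gap_ge_96 L hev hL, Delta1_ge⟩

end Vale.Agent.Results.P348.HaldaneGapBound
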