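import Vale.Agent.P353.BFSS
import Vale.Agent.P353.BdU.B34

open MeasureTheory Vale.Agent.P353.BFSS

/-- The space `ker H_N` of normalizable zero-energy states of the `SU(N)` BFSS matrix model has a
finite basis `Φ` (almost everywhere linearly independent and spanning); its dimension `n` is at most
the number `p(N)` of partitions of `N`, and for `N = 2` it is exactly `1`, and then
`∫ ‖x‖ ^ s ‖Φ x‖ ^ 2 < ∞` for `0 ≤ s < 9`. -/
theorem Vale.Agent.Results.P353.Main.result {N d : ℕ} {F : Type*} [NormedAddCommGroup F]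
    [InnerProductSpace ℂ F] (M : Model N d F) :
    ∃ (n : ℕ) (Φ : Fin n → Conf d → F), n ≤ Fintype.card (Nat.Partition N) ∧
      (N = 2 → n = 1 ∧ ∀ i (s : ℝ), 0 ≤ s → s < 9 →
        Integrable (fun x => ‖x‖ ^ s * ‖Φ i x‖ ^ 2) (leb d)) ∧
      (∀ i, M.IsZeroEnergyState (Φ i)) ∧
      (∀ c : Fin n → ℂ, (∀ᵐ x ∂leb d, ∑ i, c i • Φ i x = 0) → c = 0) ∧
      ∀ Ψ, M.IsZeroEnergyState Ψ →
        ∃ c : Fin n → ℂ, ∀ᵐ x ∂leb d, Ψ x = ∑ i, c i • Φ i x :=
  Vale.Agent.P353Main.main M
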