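import Vale.Agent.P358.Defs
import Vale.Agent.P358.Bdl.B1

set_option autoImplicit false

namespace Vale.Agent.Results.P358.Additivity

open Vale.Agent.P358

/-- For all parameters the Holevo capacity of the generalized amplitude-damping channel is
additive under tensor powers and the classical capacity equals the Holevo capacity. -/
theorem result {γ ν : ℝ} (hγ : γ ∈ Set.Icc (0 : ℝ) 1) (hν : ν ∈ Set.Icc (0 : ℝ) 1) :
    (∀ n : ℕ, BddAbove (holevoSet (tensorPower (gadc γ ν) n))) ∧
    (∀ n : ℕ, holevo (tensorPower (gadc γ ν) n) = n * holevo (gadc γ ν)) ∧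
    capacity (gadc γ ν) = holevo (gadc γ ν) :=
  ⟨fun n => ⟨n * holevo (gadc γ ν), fun _ hv => mem_holevoSet_le hγ hν n hv⟩,
    fun n => holevo_tensorPower hγ hν n, capacity_eq_holevo hγ hν⟩

end Vale.Agent.Results.P358.Additivity
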