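import Vale.Agent.P363.Bdl.B3

namespace Vale.Agent.Results.P363.AtMostTwo

/-- For at most two electrons the question has a positive answer for every molecule. -/
theorem result (n : ℕ) (hn : n + 1 ≤ 2) : Vale.Agent.P363.Stmt.CoulombDensitiesRepresentable n :=
  Vale.Agent.P363.Bridge.at_most_two n hn

end Vale.Agent.Results.P363.AtMostTwo
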