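import Vale.Agent.P363.Bdl.B3

namespace Vale.Agent.Results.P363.AtMostTwoPure

/-- For at most two electrons the question has a positive answer for every molecule, and the
density is even represented by a pure noninteracting ground state in a potential with Coulomb
bounds. -/
theorem result (n : ℕ) (hn : n + 1 ≤ 2) :
    Vale.Agent.P363.Stmt.CoulombDensitiesRepresentable n ∧
      Vale.Agent.P363.Stmt.CoulombDensitiesPureRepresentable n :=
  ⟨Vale.Agent.P363.Bridge.at_most_two n hn, Vale.Agent.P363.Bridge.at_most_two_pure n hn⟩

end Vale.Agent.Results.P363.AtMostTwoPure
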