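import Vale.Agent.P369.Bd3.B2

namespace Vale.Agent.Results.P369.ThermalSecondInput

open Vale.Agent.P369 (Conf)
open Vale.Agent.P369.Sys

/-- The entropy photon-number inequality with thermal second input `τ_s^{⊗n}`: every number of
modes, every transmissivity, every `s ≥ 0` and every first input of finite mean photon number. -/
theorem result {n : ℕ} (hn : 1 ≤ n) {η : ℝ} (h0 : 0 ≤ η) (h1 : η ≤ 1)
    {H K : Type} [NormedAddCommGroup H] [InnerProductSpace ℂ H] [CompleteSpace H]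
    [NormedAddCommGroup K] [InnerProductSpace ℂ K] [CompleteSpace K]
    (e : Conf n → H) (he : IsNumberBasis e)
    (f : Conf n → Conf n → K) (hf : IsNumberBasis fun x : Conf n × Conf n => f x.1 x.2)
    (ρA ρB : H →L[ℂ] H) (hA : IsState e ρA) (eA : FiniteEnergy e ρA) (hB : IsState e ρB)
    {s : ℝ} (hs : 0 ≤ s)
    (hBs : ∀ k : Conf n, ρB (e k) = ((∏ j, s ^ k j / (s + 1) ^ (k j + 1) : ℝ) : ℂ) • e k) :
    (∃ ρC : H →L[ℂ] H, IsOutput η e f ρA ρB ρC) ∧
    ∀ ρC : H →L[ℂ] H, IsOutput η e f ρA ρB ρC → IsState e ρC ∧ FiniteEnergy e ρC ∧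
      η * photonNumber e ρA + (1 - η) * photonNumber e ρB ≤ photonNumber e ρC :=
  Vale.Agent.P369T.epni_thermal (fun _ hκ => Vale.Agent.P369A.ampFd hn hκ) hn h0 h1 e he
    f hf ρA ρB hA eA hB hs hBs

end Vale.Agent.Results.P369.ThermalSecondInput
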