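import Vale.Agent.P369.Bd3.B2

namespace Vale.Agent.Results.P369.VacuumEnvironment

open Vale.Agent.P369 (Conf)
open Vale.Agent.P369.Sys

/-- The entropy photon-number inequality with vacuum second input: every number of modes, every
transmissivity and every first input of finite mean photon number. -/
theorem result {n : ℕ} (hn : 1 ≤ n) {η : ℝ} (h0 : 0 ≤ η) (h1 : η ≤ 1)
    {H K : Type} [NormedAddCommGroup H] [InnerProductSpace ℂ H] [CompleteSpace H]
    [NormedAddCommGroup K] [InnerProductSpace ℂ K] [CompleteSpace K]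
    (e : Conf n → H) (he : IsNumberBasis e)
    (f : Conf n → Conf n → K) (hf : IsNumberBasis fun x : Conf n × Conf n => f x.1 x.2)
    (ρA ρB : H →L[ℂ] H) (hA : IsState e ρA) (eA : FiniteEnergy e ρA)
    (hB : IsState e ρB) (hB0 : ρB (e 0) = e 0) :
    (∃ ρC : H →L[ℂ] H, IsOutput η e f ρA ρB ρC) ∧
    ∀ ρC : H →L[ℂ] H, IsOutput η e f ρA ρB ρC → IsState e ρC ∧ FiniteEnergy e ρC ∧
      η * photonNumber e ρA + (1 - η) * photonNumber e ρB ≤ photonNumber e ρC :=
  Vale.Agent.P369V.epni_vacuum hn h0 h1 e he f hf ρA ρB hA eA hB hB0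

end Vale.Agent.Results.P369.VacuumEnvironment
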