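import Vale.Agent.P370.Bdl.B18

namespace Vale.Agent.Results.P370.NPHardProtons

open Vale.Agent.P370

theorem result : ∃ c : ℕ, 0 < c ∧ Reduces maxCut (protonStructure c) ∧
    Reduces maxCut (electronicStructure c) :=
  Red.main

end Vale.Agent.Results.P370.NPHardProtons
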