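import Vale.Agent.P370.Bdl.B17

namespace Vale.Agent.Results.P370.QMAHardTuring

open Vale.Agent.P370

/-- For every `c`, the antiferromagnetic Heisenberg ground energy problem (weights and threshold in
unary) reduces to the electronic structure problem with gap `L^{-c}` by a polynomial time Turing
reduction. -/
theorem result (c : ℕ) : TuringReduces heisenbergAF (electronicStructure c) :=
  Q.Alg.turing_main c

end Vale.Agent.Results.P370.QMAHardTuring
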