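import Vale.Agent.P371.Bdl.B2

/-!
The sharp one-dimensional Lieb-Thirring constants for `γ = 1`, scalar and matrix potentials.
-/

namespace Vale.Agent.Results.P371.SharpGammaOne

open Vale.Agent.P371.LT

/-- For every `m ≥ 1`, `L_1(m) = L_1(1) = L_1^{(1)} = 2 ((1-1/2)/(1+1/2))^(1-1/2) L_1^cl`,
which is `4 / (3 √3 π)`. -/
theorem result (m : ℕ) (hm : 1 ≤ m) :
    LTconst 1 m = LTone 1 ∧ LTconst 1 m = LTconst 1 1 ∧
    LTone 1 = ENNReal.ofReal (2 * ((1 - 1 / 2) / (1 + 1 / 2)) ^ ((1 : ℝ) - 1 / 2) * Lcl 1) ∧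
    LTone 1 = ENNReal.ofReal (4 / (3 * √3 * Real.pi)) := by
  obtain ⟨h1, h2⟩ := Vale.Agent.P371.LTconst_one_eq m hm
  obtain ⟨h3, -⟩ := Vale.Agent.P371.LTconst_one_eq 1 le_rfl
  rw [LTconst_eq, LTone_eq] at h1 h3
  rw [LTone_eq] at h2
  exact ⟨h1, h1.trans h3.symm, h2, by rw [h2, ← Vale.Agent.P371.value_one]⟩

end Vale.Agent.Results.P371.SharpGammaOne
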